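import Mathlib

/-!
Numerical minimal model program on a surface: the canonical class is a nef class plus a sum of
pairwise orthogonal exceptional classes. Only the intersection form is used.
-/

namespace Vale.Agent.P297Z.Num

/-- The numerical data of a surface with `χ(O) = 1`. -/
structure Surf (Λ Cv : Type) [AddCommGroup Λ] where
  /-- the intersection form -/
  B : Λ →+ Λ →+ ℤ
  /-- the canonical class -/
  K : Λ
  /-- an ample class -/
  H : Λ
  /-- the classes of the prime divisors -/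
  cl : Cv → Λ
  /-- the classes with a nonzero section -/
  Sec : Λ → Prop
  symm : ∀ x y, B x y = B y x
  pos : ∀ C C', C ≠ C' → 0 ≤ B (cl C) (cl C')
  adj : ∀ C, -2 ≤ B (cl C) (cl C) + B K (cl C)
  ample : ∀ C, 0 < B H (cl C)
  Hsq : 0 < B H H
  Hsec : Sec H
  sec : ∀ x, Sec x → ∃ y ∈ AddSubmonoid.closure (Set.range cl), ∀ z, B x z = B y z
  rr : ∀ x, 0 ≤ B x x - B K x → Sec x ∨ Sec (K - x)
  par : ∀ x, Even (B x x - B K x)

namespace Surf

variable {Λ Cv : Type} [AddCommGroup Λ] (S : Surf Λ Cv)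

/-- Sums of prime divisors. -/
def Eff0 (x : Λ) : Prop := x ∈ AddSubmonoid.closure (Set.range S.cl)

/-- Numerically effective classes. -/
def Eff (x : Λ) : Prop := ∃ y, S.Eff0 y ∧ ∀ z, S.B x z = S.B y z

/-- Nef classes. -/
def Nef (x : Λ) : Prop := ∀ C, 0 ≤ S.B x (S.cl C)

theorem eff_of_sec {S : Surf Λ Cv} {x : Λ} (hx : S.Sec x) : S.Eff x := S.sec x hx

theorem Eff.add {S : Surf Λ Cv} {x y : Λ} (hx : S.Eff x) (hy : S.Eff y) : S.Eff (x + y) := by
  obtain ⟨a, ha, h1⟩ := hx
  obtain ⟨b, hb, h2⟩ := hy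
  exact ⟨a + b, add_mem ha hb, fun z => by
    rw [map_add, map_add, AddMonoidHom.add_apply, AddMonoidHom.add_apply, h1, h2]⟩

theorem Nef.eff0 {S : Surf Λ Cv} {x y : Λ} (hx : S.Nef x) (hy : S.Eff0 y) : 0 ≤ S.B x y := by
  induction hy using AddSubmonoid.closure_induction with
  | mem z hz =>
    obtain ⟨C, rfl⟩ := hz
    exact hx C
  | zero => rw [map_zero]
  | add a b _ _ ha hb =>
    rw [map_add]
    exact add_nonneg ha hb

theorem Nef.eff {S : Surf Λ Cv} {x y : Λ} (hx : S.Nef x) (hy : S.Eff y) : 0 ≤ S.B x y := by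
  obtain ⟨a, ha, h1⟩ := hy
  rw [S.symm, h1, S.symm]
  exact hx.eff0 ha

theorem nef_H : S.Nef S.H := fun C => (S.ample C).le

theorem eff0_iff {x : Λ} (hx : S.Eff0 x) :
    ∃ (U : Finset Cv) (g : Cv → ℕ), x = ∑ C ∈ U, g C • S.cl C := by
  classical
  induction hx using AddSubmonoid.closure_induction with
  | mem z hz =>
    obtain ⟨C, rfl⟩ := hz
    exact ⟨{C}, fun _ => 1, by simp⟩
  | zero => exact ⟨∅, fun _ => 0, by simp⟩
  | add a b _ _ ha hb =>
    obtain ⟨U, g, rfl⟩ := ha
    obtain ⟨U', g', rfl⟩ := hb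
    refine ⟨U ∪ U', fun C => (if C ∈ U then g C else 0) + if C ∈ U' then g' C else 0, ?_⟩
    simp only [add_smul, Finset.sum_add_distrib, ite_smul, zero_smul]
    rw [← Finset.sum_filter, ← Finset.sum_filter, Finset.filter_mem_eq_inter,
      Finset.filter_mem_eq_inter, Finset.union_inter_cancel_left, Finset.union_inter_cancel_right]

theorem eff0_deg_zero {y : Λ} (hy : S.Eff0 y) (h0 : S.B S.H y = 0) (z : Λ) : S.B y z = 0 := by
  induction hy using AddSubmonoid.closure_induction with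
  | mem a ha =>
    obtain ⟨C, rfl⟩ := ha
    exact absurd h0 (S.ample C).ne'
  | zero => rw [map_zero, AddMonoidHom.zero_apply]
  | add a b ha hb iha ihb =>
    have h1 := S.nef_H.eff0 ha
    have h2 := S.nef_H.eff0 hb
    rw [map_add] at h0
    rw [map_add, AddMonoidHom.add_apply, iha (by omega), ihb (by omega), add_zero]

/-- The self-intersection of a curve is bounded below in terms of its degree. -/
theorem exists_sq_bound : ∃ M : ℤ, 0 ≤ M ∧ ∀ C, -(M * S.B S.H (S.cl C)) ≤ S.B (S.cl C) (S.cl C) := by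
  have hH := S.Hsq
  set c : ℤ := 3 * |S.B S.H S.K| + 2 * |S.B S.K S.K| + 1 with hc
  have a1 := abs_nonneg (S.B S.H S.K)
  have a2 := abs_nonneg (S.B S.K S.K)
  have a3 := le_abs_self (S.B S.H S.K)
  have a4 := neg_abs_le (S.B S.K S.K)
  have a5 : c ≤ c * S.B S.H S.H := le_mul_of_one_le_right (by omega) hH
  have h1 : S.Eff (c • S.H - S.K) := by
    rcases S.rr (c • S.H - S.K) (by
      simp only [map_sub, map_zsmul, AddMonoidHom.sub_apply, AddMonoidHom.zsmul_apply, smul_eq_mul,
        S.symm S.K S.H]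
      have a6 : 2 * |S.B S.K S.K| + 1 ≤ c * S.B S.H S.H - 3 * S.B S.H S.K := by omega
      have a7 : 2 * |S.B S.K S.K| + 1 ≤ c * (c * S.B S.H S.H - 3 * S.B S.H S.K) :=
        a6.trans (le_mul_of_one_le_left (by omega) (by omega))
      linarith) with h | h
    · exact eff_of_sec h
    · have h2 := S.nef_H.eff (eff_of_sec h)
      simp only [map_sub, map_zsmul, smul_eq_mul] at h2
      omega
  obtain ⟨y, hy, h2⟩ := h1
  obtain ⟨U, g, rfl⟩ := S.eff0_iff hy
  have a8 : 0 ≤ ∑ C ∈ U, |S.B (S.cl C) (S.cl C)| := Finset.sum_nonneg fun _ _ => abs_nonneg _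
  refine ⟨c + 2 + ∑ C ∈ U, |S.B (S.cl C) (S.cl C)|, by omega, fun C => ?_⟩
  have h3 := S.ample C
  by_cases hC : C ∈ U
  · have h4 : |S.B (S.cl C) (S.cl C)| ≤ ∑ C ∈ U, |S.B (S.cl C) (S.cl C)| :=
      Finset.single_le_sum (f := fun C => |S.B (S.cl C) (S.cl C)|) (fun _ _ => abs_nonneg _) hC
    have h5 := neg_abs_le (S.B (S.cl C) (S.cl C))
    have h6 := le_mul_of_one_le_right (a := c + 2 + ∑ C ∈ U, |S.B (S.cl C) (S.cl C)|) (by omega) h3
    omega
  · have h4 : 0 ≤ S.B (c • S.H - S.K) (S.cl C) := by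
      rw [h2, map_sum, AddMonoidHom.finsetSum_apply]
      refine Finset.sum_nonneg fun C' hC' => ?_
      rw [map_nsmul, AddMonoidHom.nsmul_apply]
      exact nsmul_nonneg (S.pos C' C fun h5 => hC (h5 ▸ hC')) _
    simp only [map_sub, map_zsmul, AddMonoidHom.sub_apply, AddMonoidHom.zsmul_apply,
      smul_eq_mul] at h4
    have h5 := S.adj C
    have h6 := le_mul_of_one_le_right (a := 2 + ∑ C ∈ U, |S.B (S.cl C) (S.cl C)|) (by omega) h3
    linarith

theorem exists_pair_bound : ∃ M : ℤ, 0 ≤ M ∧ ∀ y z, S.Eff y → S.Eff z →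
    0 ≤ S.B y z + M * (S.B S.H y * S.B S.H z) := by
  obtain ⟨M, hM, h⟩ := S.exists_sq_bound
  refine ⟨M, hM, ?_⟩
  rintro y z ⟨y', hy, h1⟩ ⟨z', hz, h2⟩
  rw [h1, S.symm y', h2, S.symm S.H y, S.symm S.H z, h1, h2, S.symm y', S.symm z' S.H]
  clear h1 h2
  induction hy using AddSubmonoid.closure_induction with
  | mem a ha =>
    obtain ⟨C, rfl⟩ := ha
    induction hz using AddSubmonoid.closure_induction with
    | mem b hb =>
      obtain ⟨C', rfl⟩ := hb
      have h3 := S.ample C
      have h4 := S.ample C'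
      by_cases hC : C' = C
      · subst hC
        have h5 := h C'
        have h6 := le_mul_of_one_le_right (mul_nonneg hM h3.le) h3
        linarith
      · exact add_nonneg (S.pos _ _ hC) (by positivity)
    | zero => simp
    | add a b _ _ ha hb =>
      simp only [map_add, AddMonoidHom.add_apply]
      linarith
  | zero => simp
  | add a b _ _ ha hb =>
    simp only [map_add]
    linarith

/-- The index theorem of Hodge, from the inequality of Riemann, Roch and Serre. -/
theorem hodge (x : Λ) (hx : S.B S.H x = 0) : S.B x x ≤ 0 := by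
  by_contra hcon
  rw [not_le] at hcon
  obtain ⟨M, hM, h⟩ := S.exists_pair_bound
  have key : ∀ n : ℤ, |S.B S.K x| < |n| → S.Eff (S.K - n • x) := by
    intro n hn
    rcases S.rr (n • x) (by
      simp only [map_zsmul, AddMonoidHom.zsmul_apply, smul_eq_mul]
      have a1 : n * S.B S.K x ≤ |n| * |S.B S.K x| := by
        rw [← abs_mul]
        exact le_abs_self _
      have a2 : |n| * |S.B S.K x| ≤ |n| * |n| := mul_le_mul_of_nonneg_left hn.le (abs_nonneg n)
      rw [abs_mul_abs_self] at a2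
      have a3 := le_mul_of_one_le_right (mul_self_nonneg n) hcon
      linarith) with h1 | h1
    · obtain ⟨y, hy, h2⟩ := eff_of_sec h1
      have h3 := S.eff0_deg_zero hy (by
        rw [S.symm, ← h2, S.symm, map_zsmul, hx, smul_zero]) x
      rw [← h2, map_zsmul, AddMonoidHom.zsmul_apply, smul_eq_mul] at h3
      have h4 : n = 0 := (mul_eq_zero.mp h3).resolve_right hcon.ne'
      rw [h4, abs_zero] at hn
      exact absurd hn (not_lt.mpr (abs_nonneg _))
    · exact eff_of_sec h1
  have a1 := abs_nonneg (S.B S.K x)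
  have a2 := abs_nonneg (S.B S.K S.K)
  have a3 : 0 ≤ M * (S.B S.H S.K * S.B S.H S.K) := mul_nonneg hM (mul_self_nonneg _)
  have a4 := le_abs_self (S.B S.K S.K)
  set n : ℤ := |S.B S.K x| + |S.B S.K S.K| + M * (S.B S.H S.K * S.B S.H S.K) + 1 with hn
  have h1 := h _ _ (key n (by rw [abs_of_nonneg (a := n) (by omega)]; omega))
    (key (-n) (by rw [abs_neg, abs_of_nonneg (a := n) (by omega)]; omega))
  simp only [map_sub, map_zsmul, AddMonoidHom.sub_apply, AddMonoidHom.zsmul_apply, smul_eq_mul,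
    S.symm x S.K, hx, mul_zero, sub_zero] at h1
  have a5 : n ≤ n * n := le_mul_of_one_le_right (by omega) (by omega)
  have a6 := le_mul_of_one_le_right (mul_self_nonneg n) hcon
  linarith

theorem hodge' {h x : Λ} (hh : 0 < S.B h h) (hx : S.B h x = 0) : S.B x x ≤ 0 := by
  by_contra hcon
  rw [not_le] at hcon
  have h1 := S.hodge (S.B S.H x • h - S.B S.H h • x) (by
    rw [map_sub, map_zsmul, map_zsmul, smul_eq_mul, smul_eq_mul]
    ring)
  have h2 : S.B S.H h ≠ 0 := fun h0 => absurd (S.hodge h h0) (not_le.mpr hh)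
  simp only [map_sub, map_zsmul, AddMonoidHom.sub_apply, AddMonoidHom.zsmul_apply, smul_eq_mul,
    S.symm x h, hx] at h1
  have h3 : 0 < S.B S.H h ^ 2 * S.B x x := mul_pos (by positivity) hcon
  have h4 : 0 ≤ S.B S.H x ^ 2 * S.B h h := mul_nonneg (sq_nonneg _) hh.le
  nlinarith

/-- The inequality of Hodge. -/
theorem hodge_ineq {h : Λ} (hh : 0 < S.B h h) (x : Λ) : S.B x x * S.B h h ≤ S.B h x ^ 2 := by
  have h1 := S.hodge' (x := S.B h h • x - S.B h x • h) hh (by
    rw [map_sub, map_zsmul, map_zsmul, smul_eq_mul, smul_eq_mul]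
    ring)
  simp only [map_sub, map_zsmul, AddMonoidHom.sub_apply, AddMonoidHom.zsmul_apply, smul_eq_mul,
    S.symm x h] at h1
  have h2 : S.B h h * (S.B x x * S.B h h - S.B h x ^ 2) ≤ 0 := by nlinarith
  have h3 := nonpos_of_mul_nonpos_right h2 hh
  linarith

/-- The case of equality. -/
theorem hodge_eq {h x : Λ} (hh : 0 < S.B h h) (hx : S.B h x = 0) (h0 : S.B x x = 0) (y : Λ) :
    S.B x y = 0 := by
  by_contra hne
  have h1 := S.hodge_ineq hh ((S.B x y * (S.B h y ^ 2 + |S.B y y| * S.B h h + 1)) • x + y)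
  simp only [map_add, map_zsmul, AddMonoidHom.add_apply, AddMonoidHom.zsmul_apply, smul_eq_mul,
    S.symm y x, hx, h0] at h1
  have h2 : 1 ≤ S.B x y ^ 2 := by
    have := sq_pos_of_ne_zero hne
    omega
  set a := S.B x y
  set b := S.B h y
  set c := S.B y y
  set d := S.B h h
  have h3 : -|c| ≤ c := neg_abs_le c
  have h4 : 0 ≤ |c| := abs_nonneg c
  have h5 : 0 < b ^ 2 + |c| * d + 1 := by positivity
  have h6 : b ^ 2 + |c| * d + 1 ≤ a ^ 2 * (b ^ 2 + |c| * d + 1) * d := by
    have h7 : 1 ≤ a ^ 2 * d := by nlinarith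
    nlinarith
  nlinarith

/-- A stage of the program: orthogonal exceptional classes `E`, contracted curves `T`. -/
structure Stage (R : ℕ) (E : Fin R → Λ) (T : Finset Cv) : Prop where
  card : T.card = R
  orth : ∀ i j, S.B (E i) (E j) = if i = j then -1 else 0
  kE : ∀ i, S.B S.K (E i) = -1
  span : ∀ C ∈ T, S.cl C + ∑ i, S.B (S.cl C) (E i) • E i = 0
  proj : ∀ C, C ∉ T → ∃ a : Cv → ℕ, S.cl C + ∑ i, S.B (S.cl C) (E i) • E i =
    S.cl C + ∑ C' ∈ T, a C' • S.cl C'

/-- The projection to the orthogonal complement of the exceptional classes. -/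
def pr {ι : Type} [Fintype ι] (E : ι → Λ) : Λ →+ Λ where
  toFun x := x + ∑ i, S.B x (E i) • E i
  map_zero' := by simp
  map_add' x y := by
    simp only [map_add, AddMonoidHom.add_apply, add_smul, Finset.sum_add_distrib]
    abel

theorem pr_apply {ι : Type} [Fintype ι] (E : ι → Λ) (x : Λ) :
    S.pr E x = x + ∑ i, S.B x (E i) • E i := rfl

section

variable {S} {ι : Type} [Fintype ι] [DecidableEq ι] {E : ι → Λ}

theorem pr_E (orth : ∀ i j, S.B (E i) (E j) = if i = j then -1 else 0) (x : Λ) (j : ι) :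
    S.B (S.pr E x) (E j) = 0 := by
  rw [pr_apply, map_add, AddMonoidHom.add_apply, map_sum, AddMonoidHom.finsetSum_apply]
  simp only [map_zsmul, AddMonoidHom.zsmul_apply, smul_eq_mul, orth, mul_ite, mul_neg, mul_one,
    mul_zero, Finset.sum_ite_eq', Finset.mem_univ, if_true, add_neg_cancel]

theorem pr_pr (orth : ∀ i j, S.B (E i) (E j) = if i = j then -1 else 0) (x y : Λ) :
    S.B (S.pr E x) (S.pr E y) = S.B (S.pr E x) y := by
  conv_lhs => rw [pr_apply S E y, map_add, map_sum]
  simp only [map_zsmul, pr_E orth, smul_zero, Finset.sum_const_zero, add_zero]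

omit [DecidableEq ι] in
theorem pr_formula (x y : Λ) :
    S.B (S.pr E x) y = S.B x y + ∑ i, S.B x (E i) * S.B y (E i) := by
  rw [pr_apply, map_add, AddMonoidHom.add_apply, map_sum, AddMonoidHom.finsetSum_apply]
  simp only [map_zsmul, AddMonoidHom.zsmul_apply, smul_eq_mul, S.symm (E _) y]

omit [DecidableEq ι] in
theorem pr_symm (x y : Λ) : S.B (S.pr E x) y = S.B x (S.pr E y) := by
  rw [S.symm x, pr_formula, pr_formula, S.symm y x]
  simp only [mul_comm]

end

section

variable {S} {R : ℕ} {E : Fin R → Λ}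

theorem Stage.pr_eff0 {T : Finset Cv} (h : S.Stage R E T) {x : Λ} (hx : S.Eff0 x) :
    S.Eff0 (S.pr E x) := by
  induction hx using AddSubmonoid.closure_induction with
  | mem z hz =>
    obtain ⟨C, rfl⟩ := hz
    by_cases hC : C ∈ T
    · rw [pr_apply, h.span C hC]
      exact zero_mem _
    · obtain ⟨a, ha⟩ := h.proj C hC
      rw [pr_apply, ha]
      exact add_mem (AddSubmonoid.subset_closure ⟨C, rfl⟩) (sum_mem fun C' _ =>
        nsmul_mem (AddSubmonoid.subset_closure (Set.mem_range_self C')) _)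
  | zero =>
    rw [map_zero]
    exact zero_mem _
  | add a b _ _ ha hb =>
    rw [map_add]
    exact add_mem ha hb

theorem Stage.pr_eff {T : Finset Cv} (h : S.Stage R E T) {x : Λ} (hx : S.Eff x) :
    S.Eff (S.pr E x) := by
  obtain ⟨y, hy, h1⟩ := hx
  exact ⟨_, h.pr_eff0 hy, fun z => by rw [pr_symm, pr_symm, h1]⟩

theorem Stage.pr_nonneg {T : Finset Cv} (h : S.Stage R E T) {C C' : Cv} (hC : C ∉ T)
    (hne : C' ≠ C) : 0 ≤ S.B (S.pr E (S.cl C')) (S.cl C) := by
  by_cases hC' : C' ∈ T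
  · rw [pr_apply, h.span C' hC', map_zero, AddMonoidHom.zero_apply]
  · obtain ⟨a, ha⟩ := h.proj C' hC'
    rw [pr_apply, ha, map_add, AddMonoidHom.add_apply, map_sum, AddMonoidHom.finsetSum_apply]
    refine add_nonneg (S.pos _ _ hne) (Finset.sum_nonneg fun C'' hC'' => ?_)
    rw [map_nsmul, AddMonoidHom.nsmul_apply]
    exact nsmul_nonneg (S.pos C'' C fun h1 => hC (h1 ▸ hC'')) _

/-- A curve which is negative on the projection of an effective class has a negative projection
and is a component. -/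
theorem Stage.neg {T : Finset Cv} (h : S.Stage R E T) {C : Cv} (hC : C ∉ T) (U : Finset Cv)
    (g : Cv → ℕ) (hneg : S.B (S.pr E (∑ C' ∈ U, g C' • S.cl C')) (S.cl C) < 0) :
    C ∈ U ∧ S.B (S.pr E (S.cl C)) (S.cl C) < 0 := by
  by_contra hcon
  refine absurd hneg (not_lt.mpr ?_)
  rw [map_sum, map_sum, AddMonoidHom.finsetSum_apply]
  refine Finset.sum_nonneg fun C' hC' => ?_
  rw [map_nsmul, map_nsmul, AddMonoidHom.nsmul_apply]
  refine nsmul_nonneg ?_ _
  by_cases hne : C' = C
  · subst hne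
    exact not_lt.mp fun h1 => hcon ⟨hC', h1⟩
  · exact h.pr_nonneg hC hne

theorem Stage.pr_K {T : Finset Cv} (h : S.Stage R E T) : S.pr E S.K = S.K - ∑ i, E i := by
  rw [pr_apply]
  simp only [h.kE, neg_smul, one_smul, Finset.sum_neg_distrib, sub_eq_add_neg]

/-- The induction step. -/
theorem Stage.step [DecidableEq Cv] {T : Finset Cv} (h : S.Stage R E T) {C : Cv} (hC : C ∉ T)
    (h1 : S.B (S.pr E (S.cl C)) (S.cl C) < 0) (h2 : S.B (S.pr E S.K) (S.cl C) < 0) :
    S.Stage (R + 1) (Fin.cons (S.pr E (S.cl C)) E) (insert C T) := by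
  have h3 : -2 ≤ S.B (S.pr E (S.cl C)) (S.cl C) + S.B (S.pr E S.K) (S.cl C) := by
    rw [pr_formula, pr_formula]
    have h4 := S.adj C
    have h5 : 0 ≤ ∑ i, S.B (S.cl C) (E i) * S.B (S.cl C) (E i) +
        ∑ i, S.B S.K (E i) * S.B (S.cl C) (E i) := by
      rw [← Finset.sum_add_distrib]
      refine Finset.sum_nonneg fun i _ => ?_
      rw [h.kE]
      rcases le_or_gt (S.B (S.cl C) (E i)) 0 with h6 | h6 <;> nlinarith
    linarith
  have h4 : S.B (S.pr E (S.cl C)) (S.cl C) = -1 := by omega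
  have h5 : S.B (S.pr E S.K) (S.cl C) = -1 := by omega
  have key : ∀ x : Λ, x + ∑ i, S.B x (Fin.cons (α := fun _ => Λ) (S.pr E (S.cl C)) E i) •
      Fin.cons (α := fun _ => Λ) (S.pr E (S.cl C)) E i =
      S.pr E x + S.B (S.pr E x) (S.cl C) • S.pr E (S.cl C) := by
    intro x
    rw [Fin.sum_univ_succ]
    simp only [Fin.cons_zero, Fin.cons_succ]
    rw [pr_symm x, pr_apply S E x]
    abel
  refine ⟨by rw [Finset.card_insert_of_notMem hC, h.card], ?_, ?_, ?_, ?_⟩
  · intro i j
    refine Fin.cases ?_ (fun i => ?_) i <;> refine Fin.cases ?_ (fun j => ?_) j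
    · simp only [Fin.cons_zero, if_true]
      rw [pr_pr h.orth, h4]
    · simp only [Fin.cons_zero, Fin.cons_succ]
      rw [pr_E h.orth, if_neg (Fin.succ_ne_zero j).symm]
    · simp only [Fin.cons_zero, Fin.cons_succ]
      rw [S.symm, pr_E h.orth, if_neg (Fin.succ_ne_zero i)]
    · simp only [Fin.cons_succ, Fin.succ_inj]
      exact h.orth i j
  · intro i
    refine Fin.cases ?_ (fun i => ?_) i
    · simp only [Fin.cons_zero]
      rw [← pr_symm, h5]
    · simp only [Fin.cons_succ]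
      exact h.kE i
  · intro C' hC'
    rw [key]
    rcases Finset.mem_insert.mp hC' with rfl | h6
    · rw [h4, neg_smul, one_smul, add_neg_cancel]
    · rw [pr_apply S E (S.cl C'), h.span C' h6, map_zero, AddMonoidHom.zero_apply, zero_smul,
        add_zero]
  · intro C' hC'
    rw [Finset.mem_insert, not_or] at hC'
    obtain ⟨a, ha⟩ := h.proj C' hC'.2
    obtain ⟨b, hb⟩ := h.proj C hC
    obtain ⟨n, hn⟩ := Int.eq_ofNat_of_zero_le (h.pr_nonneg hC hC'.1)
    refine ⟨fun X => if X = C then n else a X + n * b X, ?_⟩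
    have h7 : ∑ X ∈ T, (if X = C then n else a X + n * b X) • S.cl X =
        ∑ X ∈ T, (a X • S.cl X + n • b X • S.cl X) := Finset.sum_congr rfl fun X hX => by
      rw [if_neg (fun h7 : X = C => hC (h7 ▸ hX)), add_smul, mul_smul]
    rw [key, hn, pr_apply, pr_apply, ha, hb, Finset.sum_insert hC]
    simp only [if_true]
    rw [h7, Finset.sum_add_distrib, ← Finset.smul_sum, natCast_zsmul, smul_add]
    abel

end

end Surf

end Vale.Agent.P297Z.Num
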