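import Vale.Agent.P297Z.Num.Mmp

/-!
The configuration: a characteristic isotropic class `F`, five exceptional classes `y` and at least
two more exceptional classes `e`.
-/

namespace Vale.Agent.P297Z.Num

namespace Surf

variable {Λ Cv : Type} [AddCommGroup Λ] (S : Surf Λ Cv)

/-- The light cone lemma. -/
theorem cone_pos {P x F : Λ} (hP : 0 < S.B P P) (hx : 0 < S.B x x) (hF : S.B F F = 0)
    (h1 : 0 < S.B P x) (h2 : 0 < S.B P F) : 0 < S.B x F := by
  by_contra hcon
  rw [not_lt] at hcon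
  have h3 := S.hodge' (x := S.B P F • x - S.B P x • F) hP (by
    rw [map_sub, map_zsmul, map_zsmul, smul_eq_mul, smul_eq_mul]
    ring)
  simp only [map_sub, map_zsmul, AddMonoidHom.sub_apply, AddMonoidHom.zsmul_apply, smul_eq_mul,
    S.symm F x, hF] at h3
  have h4 : 0 < S.B P F ^ 2 * S.B x x := by positivity
  have h5 : S.B P F * S.B P x * S.B x F ≤ 0 :=
    mul_nonpos_of_nonneg_of_nonpos (mul_pos h2 h1).le hcon
  nlinarith

/-- Effective classes which move lie in the forward cone. -/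
theorem eff_cone {P D : Λ} (hP : 0 < S.B P P) (h0 : 0 ≤ S.B P D) (h : 0 < S.B D D - S.B P D) :
    S.B P P < 2 * S.B P D := by
  by_contra hcon
  rw [not_lt] at hcon
  have h1 := S.hodge_ineq hP D
  nlinarith

/-- The configuration. -/
structure Cfg (r : ℕ) where
  /-- the nef part of the canonical class -/
  P : Λ
  /-- the canonical class after `P ^ 2` blowings up -/
  Kp : Λ
  /-- the isotropic class -/
  F : Λ
  /-- the exceptional classes -/
  E : Fin 5 ⊕ Fin (r + 2) → Λ
  hK : S.K = Kp + ∑ i, E i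
  orth : ∀ i j, S.B (E i) (E j) = if i = j then -1 else 0
  KE : ∀ i, S.B Kp (E i) = 0
  FE : ∀ i, S.B F (E i) = 0
  PE : ∀ i, S.B P (E i) = 0
  KK : S.B Kp Kp = 0
  KF : S.B Kp F = 2
  FF : S.B F F = 0
  nef : S.Nef P
  PP : 0 < S.B P P
  PF : 0 < S.B P F
  chr : ∀ x, Even (S.B x Kp - S.B x F)
  posF : ∀ D, S.Eff D → 0 < S.B (S.pr E D) (S.pr E D) - S.B Kp D → 2 ≤ S.B D F

end Surf

end Vale.Agent.P297Z.Num
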