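import Mathlib

/-!
A harmonic polynomial of degree twelve on the root lattice `A_4` which vanishes on the projections
of the vertices of the cube, written as a combination of powers of isotropic linear forms.
-/

namespace Vale.Agent.P297Z.Num

/-- Three isotropic vectors. -/
def av : Fin 3 → Fin 5 → GaussianInt :=
  ![![⟨-1, 0⟩, ⟨0, -1⟩, ⟨0, 0⟩, ⟨0, 1⟩, ⟨1, 0⟩], ![⟨-2, -1⟩, ⟨0, -1⟩, ⟨0, 1⟩, ⟨0, 2⟩, ⟨2, -1⟩],
    ![⟨-2, -2⟩, ⟨-1, 2⟩, ⟨0, 1⟩, ⟨1, 0⟩, ⟨2, -1⟩]]

/-- Their weights. -/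
def cv : Fin 3 → ℤ := ![-449, 26, 3]

/-- The index set: one of the three vectors and an affine transformation of the field with five
elements. -/
abbrev HL : Type := Fin 3 × Fin 4 × Fin 5

/-- The isotropic vectors, with Gaussian integers as coordinates. -/
def aG (l : HL) (i : Fin 5) : GaussianInt := av l.1 (l.2.1.succ * i + l.2.2)

/-- The square. -/
def sqG (z : GaussianInt) : GaussianInt := z * z

/-- The harmonic polynomial at an integral point. -/
def PG (m0 m1 m2 m3 m4 : ℤ) : GaussianInt := ∑ l : HL, cv l.1 * sqG (sqG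
  ((fun z : GaussianInt => z * z * z)
  ⟨(aG l 0).re * m0 + (aG l 1).re * m1 + (aG l 2).re * m2 + (aG l 3).re * m3 + (aG l 4).re * m4,
  (aG l 0).im * m0 + (aG l 1).im * m1 + (aG l 2).im * m2 + (aG l 3).im * m3 + (aG l 4).im * m4⟩))

/-- The isotropic vectors. -/
noncomputable def ha (l : HL) (i : Fin 5) : ℂ := GaussianInt.toComplex (aG l i)

/-- The weights. -/
noncomputable def hc (l : HL) : ℂ := (cv l.1 : ℤ)

/-- The harmonic polynomial. -/
noncomputable def hP (m : Fin 5 → ℤ) : ℂ := ∑ l : HL, hc l * (∑ i, ha l i * m i) ^ 12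

theorem hP_eq (m : Fin 5 → ℤ) :
    hP m = GaussianInt.toComplex (PG (m 0) (m 1) (m 2) (m 3) (m 4)) := by
  rw [hP, PG, map_sum]
  refine Finset.sum_congr rfl fun l _ => ?_
  have h1 : (⟨(aG l 0).re * m 0 + (aG l 1).re * m 1 + (aG l 2).re * m 2 + (aG l 3).re * m 3 +
      (aG l 4).re * m 4, (aG l 0).im * m 0 + (aG l 1).im * m 1 + (aG l 2).im * m 2 +
      (aG l 3).im * m 3 + (aG l 4).im * m 4⟩ : GaussianInt) = ∑ i, aG l i * m i := by
    rw [Fin.sum_univ_five]
    ext <;> simp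
  rw [h1]
  simp only [sqG, hc, ha, map_mul, map_intCast, map_sum]
  ring

theorem aG_sum : ∀ l, ∑ i, aG l i = 0 := by decide +kernel

theorem aG_sq : ∀ l, ∑ i, aG l i * aG l i = 0 := by decide +kernel

theorem ha_sum (l : HL) : ∑ i, ha l i = 0 := by
  simp only [ha]
  rw [← map_sum, aG_sum, map_zero]

theorem ha_sq (l : HL) : ∑ i, ha l i * ha l i = 0 := by
  simp only [ha, ← map_mul]
  rw [← map_sum, aG_sq, map_zero]

theorem PG_zero : ∀ a b c d e : Fin 2, PG a b c d e = 0 := by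
  decide +kernel

theorem hP_neg (m : Fin 5 → ℤ) : hP (-m) = hP m := by
  refine Finset.sum_congr rfl fun l _ => ?_
  simp only [Pi.neg_apply, Int.cast_neg, mul_neg, Finset.sum_neg_distrib]
  ring

theorem hP_zero_pos {m : Fin 5 → ℤ} (h : ∀ i, m i = 0 ∨ m i = 1) : hP m = 0 := by
  have h1 : ∀ i, ∃ a : Fin 2, m i = a := fun i => by
    rcases h i with h2 | h2
    · exact ⟨0, h2⟩
    · exact ⟨1, h2⟩
  choose f hf using h1
  rw [hP_eq, hf, hf, hf, hf, hf, PG_zero, map_zero]

theorem hP_zero_neg {m : Fin 5 → ℤ} (h : ∀ i, m i = 0 ∨ m i = -1) : hP m = 0 := by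
  rw [← hP_neg]
  exact hP_zero_pos fun i => by
    rw [Pi.neg_apply]
    rcases h i with h1 | h1 <;> omega

/-- The weight of a vector in the final count. -/
def wt (q s : ℤ) : ℤ := if q = 2 ∧ s = 0 then 10 else if q = 3 ∧ s = -1 then 1 else 0

theorem PG_total : ∑ a ∈ ({-1, 0, 1} : Finset ℤ), ∑ b ∈ ({-1, 0, 1} : Finset ℤ),
    ∑ c ∈ ({-1, 0, 1} : Finset ℤ), ∑ d ∈ ({-1, 0, 1} : Finset ℤ), ∑ e ∈ ({-1, 0, 1} : Finset ℤ),
    (if wt (a * a + b * b + c * c + d * d + e * e) (a + b + c + d + e) = 0 then 0 else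
      wt (a * a + b * b + c * c + d * d + e * e) (a + b + c + d + e) * PG a b c d e) =
    232848000000 := by
  decide +kernel

theorem sum_pi_succ {V : Type} [AddCommMonoid V] (T : Finset ℤ) (n : ℕ) (f : (Fin (n + 1) → ℤ) → V) :
    ∑ m ∈ Fintype.piFinset fun _ : Fin (n + 1) => T, f m =
      ∑ a ∈ T, ∑ m ∈ Fintype.piFinset fun _ : Fin n => T, f (Fin.cons a m) := by
  rw [← Finset.sum_product']
  refine Finset.sum_nbij' (fun m => (m 0, Fin.tail m)) (fun x => Fin.cons x.1 x.2) ?_ ?_ ?_ ?_ ?_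
  · intro m hm
    rw [Fintype.mem_piFinset] at hm
    exact Finset.mem_product.mpr ⟨hm 0, Fintype.mem_piFinset.mpr fun i => hm i.succ⟩
  · intro x hx
    rw [Finset.mem_product, Fintype.mem_piFinset] at hx
    exact Fintype.mem_piFinset.mpr fun i => Fin.cases hx.1 (fun j => hx.2 j) i
  · intro m _
    exact Fin.cons_self_tail m
  · intro x _
    rfl
  · intro m _
    rw [Fin.cons_self_tail]

theorem hP_total : ∑ m ∈ Fintype.piFinset fun _ : Fin 5 => ({-1, 0, 1} : Finset ℤ),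
    (wt (∑ i, m i * m i) (∑ i, m i) : ℂ) * hP m = 232848000000 := by
  have h1 := congrArg GaussianInt.toComplex PG_total
  simp only [map_sum, map_ofNat] at h1
  rw [← h1]
  simp only [sum_pi_succ, Fintype.piFinset_of_isEmpty, Finset.univ_unique, Finset.sum_singleton]
  refine Finset.sum_congr rfl fun a _ => Finset.sum_congr rfl fun b _ =>
    Finset.sum_congr rfl fun c _ => Finset.sum_congr rfl fun d _ =>
    Finset.sum_congr rfl fun e _ => ?_
  rw [hP_eq, Fin.sum_univ_five, Fin.sum_univ_five]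
  change (wt (a * a + b * b + c * c + d * d + e * e) (a + b + c + d + e) : ℂ) *
    GaussianInt.toComplex (PG a b c d e) = _
  split_ifs with h2
  · rw [h2, map_zero, Int.cast_zero, zero_mul]
  · rw [map_mul, map_intCast]

end Vale.Agent.P297Z.Num
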