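import Vale.Agent.P297Z.Num.Loci2
import Vale.Agent.P297Z.Num.Count

/-!
All numerical types occur with the same multiplicity, and the total count does not vanish.
-/

namespace Vale.Agent.P297Z.Num

variable {Λ Cv : Type} [AddCommGroup Λ] {S : Surf Λ Cv} {r : ℕ} (c : S.Cf r)

/-- The standard class of a type. -/
def Surf.Cf.rp (τ : Ty r) : Λ := c.rep τ.1.1 τ.1.2 τ.2.1

/-- The value of a type. -/
noncomputable def Surf.Cf.val (τ : Ty r) : ℂ := hP τ.1.1 * (((τ.1.2 0 - τ.1.2 1) ^ 2 *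
  tab2 r (S.B c.Kp c.Kp) (S.B c.u c.u) (S.B (c.rep τ.1.1 τ.1.2 τ.2.1) c.u) c.b
    (∑ i, τ.1.1 i * τ.1.1 i) (∑ i, τ.1.2 i * τ.1.2 i) (∑ i, τ.1.2 i) τ.2.1 τ.2.2 : ℤ) : ℂ)

theorem Surf.Cf.sum_val : ∑ τ ∈ (cand r).filter Ty.Ok, c.val τ =
    8 * (232848000000 + (S.B c.Kp c.Kp : ℂ) * 15523200000) := by
  rw [Finset.sum_filter, cand, Finset.sum_product, Finset.sum_product, ← hP_total, ← hP_root,
    Finset.mul_sum, ← Finset.sum_add_distrib, Finset.mul_sum]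
  refine Finset.sum_congr rfl fun y _ => ?_
  have h1 := congrArg (fun x : ℤ => hP y * (x : ℂ)) (sum_Wf2 r (S.B c.Kp c.Kp) (even_sq_add y))
  simp only [Int.cast_sum, Int.cast_mul, Int.cast_ofNat, Int.cast_add (wt _ _)] at h1
  rw [← mul_assoc, ← add_mul, ← mul_assoc, mul_comm _ (hP y), ← h1, Finset.mul_sum]
  refine Finset.sum_congr rfl fun a _ => ?_
  rw [← Wf_eq r _ (S.B c.u c.u) c.b fun s => S.B (c.rep y a s) c.u, Int.cast_sum, Finset.mul_sum,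
    Finset.mul_sum]
  refine Finset.sum_congr rfl fun x _ => ?_
  by_cases h : Ty.Ok ((y, a), x)
  · rw [if_pos h, if_pos (show Cond _ _ _ _ _ _ from h), Surf.Cf.val, Int.cast_mul]
  · rw [if_neg h, if_neg (show ¬ Cond _ _ _ _ _ _ from h), Int.cast_zero, mul_zero, mul_zero]

theorem Surf.Cf.sum_val_ne : ∑ τ ∈ (cand r).filter Ty.Ok, c.val τ ≠ 0 := by
  rw [c.sum_val]
  have h1 := c.low
  have h2 : (8 * (232848000000 + S.B c.Kp c.Kp * 15523200000) : ℤ) ≠ 0 := by omega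
  exact_mod_cast h2

theorem count2 {I : Type} [Fintype I] (D₁ D₂ : I → Λ) (n₁ n₂ : I → ℕ) (Lin : AddSubgroup Λ)
    (hL : ∀ x ∈ Lin, ∀ y, S.B x y = 0)
    (hv : ∀ i, S.Sec (D₁ i + c.u) ∧ S.Sec (D₂ i + c.u) ∧ (∀ x, S.B (D₁ i + D₂ i) x = S.B c.bt x) ∧
      (n₁ i + n₂ i : ℤ) = c.cc + S.B (c.la - (D₁ i + c.u)) (D₂ i + c.u))
    (hu : ∀ i j, D₁ i - D₁ j ∈ Lin → D₂ i - D₂ j ∈ Lin → n₁ i = n₁ j → i = j)
    (he : ∀ (D D' : Λ) (a b : ℕ), S.Sec (D + c.u) → S.Sec (D' + c.u) →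
      (∀ x, S.B (D + D') x = S.B c.bt x) →
      (a + b : ℤ) = c.cc + S.B (c.la - (D + c.u)) (D' + c.u) →
      ∃ i, D₁ i - D ∈ Lin ∧ D₂ i - D' ∈ Lin ∧ n₁ i = a)
    (M : I → ℂ) (kap : ℂ) (hk : kap ≠ 0)
    (van : ∀ i, Eval.chiN S.B S.K (D₁ i + c.u) ≤ 0 ∨ Eval.chiN S.B S.K (D₂ i + c.u) ≤ 0 → M i = 0)
    (ev : ∀ i, n₁ i + n₂ i ≤ 1 → 1 ≤ Eval.chiN S.B S.K (D₁ i + c.u) → 1 ≤ Eval.chiN S.B S.K (D₂ i + c.u) →
      Eval.chiN S.B S.K (D₁ i + c.u) + Eval.chiN S.B S.K (D₂ i + c.u) ≤ 3 →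
      M i = kap * Eval.Mf S.B S.K c.la (D₁ i + c.u) (D₂ i + c.u) (n₁ i) (n₂ i)) :
    ∑ i, hP (c.mY (D₁ i)) * (M i * (S.B c.uu (D₁ i) : ℂ) ^ 2) ≠ 0 := by
  classical
  let fib : Ty r → Finset I := fun τ =>
    Finset.univ.filter fun i => (∀ x, S.B (D₁ i) x = S.B (c.rp τ) x) ∧ n₁ i = τ.2.2
  have mem : ∀ τ i, i ∈ fib τ ↔ (∀ x, S.B (D₁ i) x = S.B (c.rp τ) x) ∧ n₁ i = τ.2.2 := fun τ i => by
    simp only [fib, Finset.mem_filter, Finset.mem_univ, true_and]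
  have lift : ∀ τ : Ty r, τ.Ok → ∀ D D' : Λ, (∀ x, S.B D x = S.B (c.rp τ) x) →
      (∀ x, S.B (D + D') x = S.B c.bt x) → ∃ i ∈ fib τ, D₁ i - D ∈ Lin ∧ D₂ i - D' ∈ Lin := by
    intro τ hτ D D' h h'
    obtain ⟨f1, f2, f3, -⟩ := Surf.Cf.facts h h' hτ
    have f4 := hτ.2.2.2.1
    obtain ⟨i, h1, h2, h3⟩ := he D D' τ.2.2
      (4 - ∑ i, τ.1.1 i * τ.1.1 i - ∑ i, τ.1.2 i * τ.1.2 i - τ.2.2).toNat f1 f2 h' (by omega)
    refine ⟨i, (mem τ i).mpr ⟨fun x => ?_, h3⟩, h1, h2⟩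
    have h4 := hL _ h1 x
    rw [map_sub, AddMonoidHom.sub_apply, sub_eq_zero] at h4
    rw [h4, h]
  have le : ∀ τ τ' : Ty r, τ'.Ok → (fib τ).card ≤ (fib τ').card := by
    intro τ τ' hτ
    have h1 : ∀ i, ∃ j, i ∈ fib τ → j ∈ fib τ' ∧ D₁ j - (D₁ i + (c.rp τ' - c.rp τ)) ∈ Lin ∧
        D₂ j - (D₂ i - (c.rp τ' - c.rp τ)) ∈ Lin := by
      intro i
      by_cases hi : i ∈ fib τ
      · obtain ⟨j, h2⟩ := lift τ' hτ (D₁ i + (c.rp τ' - c.rp τ)) (D₂ i - (c.rp τ' - c.rp τ))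
          (fun x => by
            rw [map_add, map_sub, AddMonoidHom.add_apply, AddMonoidHom.sub_apply,
              ((mem τ i).mp hi).1, add_sub_cancel])
          (fun x => by rw [add_add_sub_cancel, (hv i).2.2.1])
        exact ⟨j, fun _ => h2⟩
      · exact ⟨i, fun h => absurd h hi⟩
    choose φ hφ using h1
    refine Finset.card_le_card_of_injOn φ (fun i hi => (hφ i hi).1) fun i hi j hj hij => ?_
    obtain ⟨-, a1, a2⟩ := hφ i hi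
    obtain ⟨-, b1, b2⟩ := hφ j hj
    rw [hij] at a1 a2
    refine hu i j ?_ ?_ (((mem τ i).mp hi).2.trans ((mem τ j).mp hj).2.symm)
    · have h2 := sub_mem b1 a1
      rwa [sub_sub_sub_cancel_left, add_sub_add_right_eq_sub] at h2
    · have h2 := sub_mem b2 a2
      rwa [sub_sub_sub_cancel_left, sub_sub_sub_cancel_right] at h2
  let τ₀ : Ty r := ((![1, -1, 0, 0, 0], Pi.single 0 1), 2, 0)
  have h0 : τ₀.Ok := by
    simp [τ₀, Ty.Ok, Cond, Fin.sum_univ_five, Pi.single_apply]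
  have hpos : (fib τ₀).card ≠ 0 := by
    obtain ⟨i, hi, -⟩ := lift τ₀ h0 (c.rp τ₀) (c.bt - c.rp τ₀) (fun _ => rfl)
      fun x => by rw [add_sub_cancel]
    exact Finset.card_ne_zero_of_mem hi
  let ty : I → Ty r := fun i => ((c.mY (D₁ i), c.mA (D₁ i)), (S.B c.Kp (D₁ i) - S.B c.Kp c.Kp) / 2, n₁ i)
  have hty : ∀ τ i, i ∈ fib τ → ty i = τ := by
    intro τ i hi
    obtain ⟨h1, h2⟩ := (mem τ i).mp hi
    obtain ⟨h3, h4, h5, -⟩ := Surf.Cf.nums h1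
    refine Prod.ext (Prod.ext h3 h4) (Prod.ext ?_ h2)
    change (S.B c.Kp (D₁ i) - S.B c.Kp c.Kp) / 2 = τ.2.1
    omega
  have hval : ∀ τ : Ty r, τ.Ok → ∀ i ∈ fib τ,
      hP (c.mY (D₁ i)) * (M i * (S.B c.uu (D₁ i) : ℂ) ^ 2) = kap * c.val τ := by
    intro τ hτ i hi
    obtain ⟨h1, h2⟩ := (mem τ i).mp hi
    obtain ⟨-, -, v3, v4⟩ := hv i
    obtain ⟨-, -, f3, f4, f5, f6⟩ := Surf.Cf.facts h1 v3 hτ
    obtain ⟨c1, c2, c3, -⟩ := id hτ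
    obtain ⟨h3, h4, -⟩ := Surf.Cf.nums h1
    rw [ev i (by omega) f4 f5 f6, h2, Surf.Cf.mf_eq h1 v3 hτ (h2 ▸ v4), c.uu_mul, h3, h4, Surf.Cf.val]
    push_cast
    ring
  have hz : ∀ i, ¬ ((ty i).Ok ∧ i ∈ fib (ty i)) →
      hP (c.mY (D₁ i)) * (M i * (S.B c.uu (D₁ i) : ℂ) ^ 2) = 0 := by
    intro i hi
    by_contra h
    rw [← ne_eq, mul_ne_zero_iff, mul_ne_zero_iff] at h
    obtain ⟨h1, h2, h3⟩ := h
    have h4 := mt (van i) h2
    obtain ⟨v1, v2, v3, v4⟩ := hv i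
    obtain ⟨s, h5, h6⟩ := Surf.Cf.surv v1 v2 v3 v4 (by omega) (by omega) h1 fun h7 => by
      rw [h7, Int.cast_zero, zero_pow two_ne_zero] at h3
      exact h3 rfl
    have h7 : i ∈ fib ((c.mY (D₁ i), c.mA (D₁ i)), s, n₁ i) := (mem _ i).mpr ⟨h5, rfl⟩
    rw [hty _ i h7] at hi
    exact hi ⟨h6, h7⟩
  rw [← Finset.sum_filter_of_ne (p := fun i => (ty i).Ok ∧ i ∈ fib (ty i))
    fun i _ h => not_not.mp (mt (hz i) h),
    ← Finset.sum_fiberwise_of_maps_to (t := (cand r).filter Ty.Ok) (g := ty) fun i hi => by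
      rw [Finset.mem_filter] at hi ⊢
      exact ⟨hi.2.1.mem, hi.2.1⟩]
  rw [Finset.sum_congr rfl (g := fun τ => ((fib τ₀).card * kap) * c.val τ) fun τ hτ => ?_,
    ← Finset.mul_sum]
  · exact mul_ne_zero (mul_ne_zero (Nat.cast_ne_zero.mpr hpos) hk) c.sum_val_ne
  · have h1 := (Finset.mem_filter.mp hτ).2
    have h2 : (Finset.univ.filter fun i => (ty i).Ok ∧ i ∈ fib (ty i)).filter
        (fun i => ty i = τ) = fib τ := by
      ext i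
      simp only [Finset.mem_filter, Finset.mem_univ, true_and]
      constructor
      · rintro ⟨⟨-, h3⟩, rfl⟩
        exact h3
      · intro h3
        rw [hty τ i h3]
        exact ⟨⟨h1, h3⟩, rfl⟩
    rw [h2, Finset.sum_congr rfl (hval τ h1), Finset.sum_const, nsmul_eq_mul,
      le_antisymm (le τ τ₀ h0) (le τ₀ τ h1), mul_assoc]

theorem main2 {I : Type} [Fintype I] (D : I → Λ) (N M : I → ℂ)
    (rel : ∀ l, ∑ i, (∑ j, ha l j * S.B (c.E (.inl j)) (D i)) ^ 12 *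
      (N i * (-2) + M i * (S.B c.uu (D i) : ℂ) ^ 2) = 0)
    (h : ∑ i, hP (c.mY (D i)) * (M i * (S.B c.uu (D i) : ℂ) ^ 2) ≠ 0) :
    ∑ l, hc l * ∑ i, (∑ j, ha l j * S.B (c.E (.inl j)) (D i)) ^ 12 * N i ≠ 0 := by
  have key : ∀ X : I → ℂ, ∑ l, hc l * ∑ i, (∑ j, ha l j * S.B (c.E (.inl j)) (D i)) ^ 12 * X i =
      ∑ i, hP (c.mY (D i)) * X i := fun X => by
    simp only [Finset.mul_sum (s := (Finset.univ : Finset I))]
    rw [Finset.sum_comm]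
    refine Finset.sum_congr rfl fun i _ => ?_
    rw [hP, Finset.sum_mul]
    exact Finset.sum_congr rfl fun l _ => (mul_assoc _ _ _).symm
  have h1 := key fun i => N i * (-2) + M i * (S.B c.uu (D i) : ℂ) ^ 2
  simp only [rel, mul_zero, Finset.sum_const_zero] at h1
  simp only [mul_add, Finset.sum_add_distrib, ← mul_assoc _ _ (-2 : ℂ), ← Finset.sum_mul] at h1
  rw [key]
  intro h2
  rw [h2, zero_mul, zero_add] at h1
  exact h h1.symm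

end Vale.Agent.P297Z.Num
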