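import Vale.Agent.P297Z.Num.Mmp2

/-!
The configuration for all surfaces that are not ruled: an isotropic class `F`, a characteristic class
of degree two on `F`, five exceptional classes and a maximal system of further classes of square `-1`.
-/

namespace Vale.Agent.P297Z.Num

namespace Surf

variable {Λ Cv : Type} [AddCommGroup Λ] (S : Surf Λ Cv)

/-- The configuration. -/
structure Cf (r : ℕ) where
  /-- half of the difference of the canonical class and the chosen characteristic class -/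
  u : Λ
  /-- the main part of the characteristic class -/
  Kp : Λ
  /-- the isotropic class -/
  F : Λ
  /-- a class of degree one -/
  e : Λ
  /-- the classes of square `-1` -/
  E : Fin 5 ⊕ Fin (r + 2) → Λ
  hK : S.K = 2 • u + Kp + ∑ i, E i
  orth : ∀ i j, S.B (E i) (E j) = if i = j then -1 else 0
  KE : ∀ i, S.B Kp (E i) = 0
  FE : ∀ i, S.B F (E i) = 0
  uY : ∀ i, S.B u (E (.inl i)) = 0
  u0 : S.B u (E (.inr 0)) = 0
  u1 : S.B u (E (.inr 1)) = 0
  KK : S.B Kp Kp = S.B S.K S.K + 7 + r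
  low : -5 ≤ S.B Kp Kp
  KF : S.B Kp F = 2
  FF : S.B F F = 0
  ee : 0 < S.B e e
  eF : S.B e F = 1
  max : ∀ g, S.B g F = 0 → (∀ i, S.B g (E i) = 0) → S.B g g ≠ -1
  posF : ∀ D, S.Eff D → 0 < S.B D D - S.B S.K D +
    ∑ i, (S.B D (E (.inl i)) * S.B D (E (.inl i)) + S.B D (E (.inl i))) → S.B S.K F < 2 * S.B D F

variable {S}

theorem iso_le {e F g : Λ} (ee : 0 < S.B e e) (eF : S.B e F = 1) (FF : S.B F F = 0)
    (hg : S.B g F = 0) : S.B g g ≤ 0 := by
  have h := S.hodge' (x := g - S.B e g • F) ee (by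
    rw [map_sub, map_zsmul, eF, smul_eq_mul, mul_one, sub_self])
  simpa only [map_sub, map_zsmul, AddMonoidHom.sub_apply, AddMonoidHom.zsmul_apply, smul_eq_mul,
    S.symm F g, hg, FF, mul_zero, sub_zero] using h

theorem iso_eq {e F g : Λ} (ee : 0 < S.B e e) (eF : S.B e F = 1) (FF : S.B F F = 0)
    (hg : S.B g F = 0) (h0 : S.B g g = 0) (x : Λ) : S.B g x = S.B e g * S.B F x := by
  have h := S.hodge_eq (x := g - S.B e g • F) ee (by
    rw [map_sub, map_zsmul, eF, smul_eq_mul, mul_one, sub_self]) (by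
    simp only [map_sub, map_zsmul, AddMonoidHom.sub_apply, AddMonoidHom.zsmul_apply, smul_eq_mul,
      S.symm F g, hg, FF, h0, mul_zero, sub_zero]) x
  rwa [map_sub, map_zsmul, AddMonoidHom.sub_apply, AddMonoidHom.zsmul_apply, smul_eq_mul,
    sub_eq_zero] at h

theorem tri_sum {ι : Type} [Fintype ι] (m : ι → ℤ) : 0 ≤ ∑ i, (m i * m i + m i) :=
  Finset.sum_nonneg fun i _ => by rcases le_or_gt 0 (m i) with h | h <;> nlinarith

theorem tri_even {ι : Type} [Fintype ι] (m : ι → ℤ) : Even (∑ i, (m i * m i + m i)) :=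
  Finset.even_sum _ fun i _ => by
    rw [← mul_add_one]
    exact Int.even_mul_succ_self _

/-- The first part of the configuration. -/
structure Pre (S : Surf Λ Cv) (r : ℕ) (F e : Λ) (Y : Fin 5 → Λ) (A : Fin (r + 2) → Λ) : Prop where
  oY : ∀ i j, S.B (Y i) (Y j) = if i = j then -1 else 0
  oA : ∀ i j, S.B (A i) (A j) = if i = j then -1 else 0
  AY : ∀ i j, S.B (A i) (Y j) = 0
  FY : ∀ i, S.B F (Y i) = 0
  FA : ∀ i, S.B F (A i) = 0
  eY : ∀ i, S.B e (Y i) = 0
  e0 : S.B e (A 0) = 0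
  e1 : S.B e (A 1) = 0
  KY : ∀ i, S.B S.K (Y i) = -1
  K0 : S.B S.K (A 0) = -1
  K1 : S.B S.K (A 1) = -1
  low : -12 ≤ S.B S.K S.K + r
  FF : S.B F F = 0
  ee : S.B e e = 1
  eF : S.B e F = 1
  posF : ∀ D, S.Eff D → 0 < S.B D D - S.B S.K D +
    ∑ i, (S.B D (Y i) * S.B D (Y i) + S.B D (Y i)) → S.B S.K F < 2 * S.B D F

theorem Fwd.pre {R : ℕ} {E : Fin R → Λ} {h : Λ} (H : S.Fwd R E h) (hK : S.B S.K S.K ≤ -12) :
    ∃ r F e Y A, Pre S r F e Y A := by
  have hsq := H.sq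
  have hpos := H.pos
  obtain ⟨r, rfl⟩ : ∃ r : ℕ, R = 5 + (5 + (r + 2)) := ⟨R - 12, by omega⟩
  let σ : Fin 5 ⊕ (Fin 5 ⊕ Fin (r + 2)) ≃ Fin (5 + (5 + (r + 2))) :=
    (Equiv.sumCongr (Equiv.refl _) finSumFinEquiv).trans finSumFinEquiv
  let E1 : Fin 5 → Λ := fun i => E (σ (.inl i))
  let E2 : Fin 5 ⊕ Fin (r + 2) → Λ := fun i => E (σ (.inr i))
  have o1 : ∀ i j, S.B (E1 i) (E1 j) = if i = j then -1 else 0 := fun i j => by
    simp only [E1, H.orth, σ.apply_eq_iff_eq, Sum.inl.injEq]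
  have o2 : ∀ i j, S.B (E2 i) (E2 j) = if i = j then -1 else 0 := fun i j => by
    simp only [E2, H.orth, σ.apply_eq_iff_eq, Sum.inr.injEq]
  have o12 : ∀ i j, S.B (E1 i) (E2 j) = 0 := fun i j => by
    simp only [E1, E2, H.orth, σ.apply_eq_iff_eq, reduceCtorEq, if_false]
  have p1 : ∀ i, S.B h (E1 i) = 0 := fun i => H.hE _
  have p2 : ∀ i, S.B h (E2 i) = 0 := fun i => H.hE _
  have k2 : ∀ i, S.B S.K (E2 i) = -1 := fun i => H.kE _
  obtain ⟨a, b, c, d, h4⟩ := Nat.sum_four_squares (S.B h h - 1).toNat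
  have h5 : S.B h h = 1 + (a * a + b * b + c * c + d * d : ℤ) := by
    have h6 := congrArg (Nat.cast : ℕ → ℤ) h4
    push_cast at h6
    rw [Int.toNat_of_nonneg (by omega)] at h6
    linarith
  let cv : Fin 5 → ℤ := ![1, a, b, c, d]
  obtain ⟨F, hF⟩ : ∃ F, F = h - ∑ i, cv i • E1 i := ⟨_, rfl⟩
  have f0 : ∀ x, S.B F x = S.B h x - ∑ i, cv i * S.B (E1 i) x := fun x => by
    simp only [hF, map_sub, map_sum, map_zsmul, AddMonoidHom.sub_apply,
      AddMonoidHom.finsetSum_apply, AddMonoidHom.zsmul_apply, smul_eq_mul]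
  have f1 : ∀ j, S.B F (E1 j) = cv j := fun j => by
    rw [f0, p1]
    simp [o1]
  have f2 : ∀ j, S.B F (E2 j) = 0 := fun j => by
    rw [f0, p2]
    simp [o12]
  have f3 : S.B F h = S.B h h := by
    rw [f0]
    simp [S.symm _ h, p1]
  have ff : S.B F F = 0 := by
    rw [f0, S.symm h F, f3, h5]
    simp only [S.symm _ F, f1, Fin.sum_univ_five, cv, Matrix.cons_val]
    ring
  have f4 : S.B F (E1 0) = 1 := f1 0
  refine ⟨r, F, E1 0 + F, fun i => E2 (.inl i), fun i => E2 (.inr i), fun i j => ?_, fun i j => ?_,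
    fun i j => ?_, fun i => f2 _, fun i => f2 _, fun i => ?_, ?_, ?_, fun i => k2 _, k2 _, k2 _, ?_,
    ff, ?_, ?_, fun D hD h6 => ?_⟩
  · simp only [o2, Sum.inl.injEq]
  · simp only [o2, Sum.inr.injEq]
  · simp only [o2, reduceCtorEq, if_false]
  · rw [map_add, AddMonoidHom.add_apply, o12, f2, add_zero]
  · rw [map_add, AddMonoidHom.add_apply, o12, f2, add_zero]
  · rw [map_add, AddMonoidHom.add_apply, o12, f2, add_zero]
  · push_cast at hsq
    omega
  · simp only [map_add, AddMonoidHom.add_apply, S.symm (E1 0) F, f4, ff, o1, if_true]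
    rfl
  · rw [map_add, AddMonoidHom.add_apply, S.symm (E1 0) F, f4, ff, add_zero]
  · have t1 := tri_sum fun i => S.B D (E1 i)
    have t2 := tri_sum fun i => S.B D (E2 (.inr i))
    obtain ⟨k, t3⟩ := tri_even fun i => S.B D (E2 i)
    obtain ⟨l, t4⟩ := S.par D
    have t5 := t3
    rw [Fintype.sum_sum_type] at t5
    have h7 := H.fwd D hD (by
      rw [← σ.sum_comp, Fintype.sum_sum_type]
      change 0 < _ + (∑ i, (S.B D (E1 i) * S.B D (E1 i) + S.B D (E1 i)) +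
        ∑ i, (S.B D (E2 i) * S.B D (E2 i) + S.B D (E2 i)))
      omega)
    have e1 : ∀ y, S.B (S.pr E2 y) (2 • S.pr E2 D - S.pr E2 S.K) =
        2 * S.B (S.pr E2 y) D - S.B (S.pr E2 y) S.K := fun y => by
      rw [map_sub, map_nsmul, pr_pr o2, pr_pr o2, nsmul_eq_mul, Nat.cast_ofNat]
    have e2 : ∀ y, (∀ j, S.B y (E2 j) = 0) → S.B y (2 • S.pr E2 D - S.pr E2 S.K) =
        2 * S.B y D - S.B y S.K := fun y hy => by
      rw [map_sub, map_nsmul, ← pr_symm, ← pr_symm, pr_formula, pr_formula]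
      simp [hy]
    have h8 := S.cone_lt (x := 2 • S.pr E2 D - S.pr E2 S.K) (y := F) hpos (by
      rw [map_sub S.B, map_nsmul S.B, AddMonoidHom.sub_apply, AddMonoidHom.nsmul_apply, e1, e1,
        pr_symm D S.K, S.symm D (S.pr E2 S.K), nsmul_eq_mul, Nat.cast_ofNat, pr_formula,
        pr_formula, pr_formula]
      rw [Finset.sum_add_distrib] at t3
      simp only [k2, neg_mul, one_mul, Finset.sum_neg_distrib, neg_neg, Finset.sum_const,
        Finset.card_univ, Fintype.card_sum, Fintype.card_fin, nsmul_eq_mul, mul_one]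
      push_cast at hsq ⊢
      omega) ff.ge (by rw [e2 h p2]; omega) (by rwa [S.symm, f3])
    rw [S.symm, e2 F f2, S.symm F, S.symm F] at h8
    omega

theorem Pre.bound {r : ℕ} {F e : Λ} {Y : Fin 5 → Λ} {A : Fin (r + 2) → Λ} (H : Pre S r F e Y A) :
    (r : ℤ) ≤ -S.B (S.K - S.B S.K F • e) (S.K - S.B S.K F • e) := by
  have h1 := iso_le (g := S.pr A (S.K - S.B S.K F • e)) (by rw [H.ee]; exact one_pos) H.eF H.FF (by
    rw [pr_formula]
    simp [H.FA, H.eF])
  rw [pr_pr H.oA, pr_formula] at h1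
  have h2 : ∑ _i : Fin (r + 2), (1 : ℤ) ≤
      ∑ i, S.B (S.K - S.B S.K F • e) (A i) * S.B (S.K - S.B S.K F • e) (A i) := by
    refine Finset.sum_le_sum fun i _ => Int.add_one_le_of_lt (a := 0) (mul_self_pos.2 ?_)
    obtain ⟨k, hk⟩ := S.par (A i)
    obtain ⟨l, hl⟩ := S.par F
    rw [H.oA, if_pos rfl] at hk
    rw [H.FF] at hl
    rw [map_sub, map_zsmul, AddMonoidHom.sub_apply, AddMonoidHom.zsmul_apply, smul_eq_mul,
      show S.B S.K F = -2 * l by omega, mul_assoc]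
    omega
  simp only [Finset.sum_const, Finset.card_univ, Fintype.card_fin, nsmul_eq_mul, mul_one] at h2
  push_cast at h2
  omega

theorem Pre.snoc {r : ℕ} {F e : Λ} {Y : Fin 5 → Λ} {A : Fin (r + 2) → Λ} (H : Pre S r F e Y A)
    {g : Λ} (h1 : S.B g F = 0) (h2 : ∀ i, S.B g (Y i) = 0) (h3 : ∀ i, S.B g (A i) = 0)
    (h4 : S.B g g = -1) : Pre S (r + 1) F e Y (Fin.snoc A g) := by
  have a0 : Fin.snoc (α := fun _ => Λ) A g (0 : Fin (r + 1 + 2)) = A 0 :=
    Fin.snoc_castSucc (α := fun _ => Λ) g A 0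
  have a1 : Fin.snoc (α := fun _ => Λ) A g (1 : Fin (r + 1 + 2)) = A 1 :=
    Fin.snoc_castSucc (α := fun _ => Λ) g A 1
  refine ⟨H.oY, fun i j => ?_, fun i j => ?_, H.FY, fun i => ?_, H.eY, by rw [a0, H.e0],
    by rw [a1, H.e1], H.KY, by rw [a0, H.K0], by rw [a1, H.K1], ?_, H.FF, H.ee, H.eF, H.posF⟩
  · refine Fin.lastCases ?_ (fun i => ?_) i <;> refine Fin.lastCases ?_ (fun j => ?_) j
    · rw [Fin.snoc_last, if_pos rfl, h4]
    · rw [Fin.snoc_last, Fin.snoc_castSucc, h3, if_neg (Fin.castSucc_ne_last j).symm]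
    · rw [Fin.snoc_last, Fin.snoc_castSucc, S.symm, h3, if_neg (Fin.castSucc_ne_last i)]
    · simp only [Fin.snoc_castSucc, H.oA, Fin.castSucc_inj]
  · refine Fin.lastCases ?_ (fun i => ?_) i
    · rw [Fin.snoc_last, h2]
    · rw [Fin.snoc_castSucc, H.AY]
  · refine Fin.lastCases ?_ (fun i => ?_) i
    · rw [Fin.snoc_last, S.symm, h1]
    · rw [Fin.snoc_castSucc, H.FA]
  · have := H.low
    push_cast
    omega

theorem Pre.cf {r : ℕ} {F e : Λ} {Y : Fin 5 → Λ} {A : Fin (r + 2) → Λ} (H : Pre S r F e Y A)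
    (hm : ∀ A', ¬ Pre S (r + 1) F e Y A') : Nonempty (S.Cf r) := by
  obtain ⟨l, hl⟩ := S.par F
  rw [H.FF] at hl
  obtain ⟨k, hk⟩ := S.par ((-l - 1) • e)
  obtain ⟨u, hu⟩ : ∃ u, u = (-l - 1) • e + k • F := ⟨_, rfl⟩
  have u0 : ∀ x, S.B u x = (-l - 1) * S.B e x + k * S.B F x := fun x => by
    simp only [hu, map_add, map_zsmul, AddMonoidHom.add_apply, AddMonoidHom.zsmul_apply,
      smul_eq_mul]
  obtain ⟨X, hX⟩ : ∃ X, X = S.K - 2 • u := ⟨_, rfl⟩
  have x0 : ∀ x, S.B X x = S.B S.K x - 2 * S.B u x := fun x => by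
    rw [hX, map_sub, map_nsmul, AddMonoidHom.sub_apply, AddMonoidHom.nsmul_apply, nsmul_eq_mul,
      Nat.cast_ofNat]
  have uF : S.B u F = -l - 1 := by rw [u0, H.eF, H.FF, mul_one, mul_zero, add_zero]
  have xF : S.B X F = 2 := by
    rw [x0, uF]
    omega
  have uu : S.B u u = S.B S.K u := by
    simp only [map_zsmul, AddMonoidHom.zsmul_apply, smul_eq_mul, H.ee] at hk
    rw [u0, S.symm e, S.symm F, S.symm S.K, uF, u0, u0, H.ee, S.symm F e, H.eF, S.symm e, S.symm F,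
      show S.B S.K F = -2 * l by omega]
    linarith
  have xx : S.B X X = S.B S.K S.K := by
    rw [x0, S.symm _ X, S.symm _ X, x0, x0, uu, S.symm u]
    ring
  have hn : ∀ i, ∃ n : ℤ, S.B X (A i) + 2 * n = -1 := fun i => by
    obtain ⟨j, hj⟩ := S.par (A i)
    rw [H.oA, if_pos rfl] at hj
    exact ⟨j + S.B u (A i), by rw [x0]; omega⟩
  choose n hn using hn
  let E : Fin 5 ⊕ Fin (r + 2) → Λ := Sum.elim Y fun i => A i + n i • F
  have eA : ∀ x i, S.B x (E (.inr i)) = S.B x (A i) + n i * S.B x F := fun x i => by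
    simp only [E, Sum.elim_inr, map_add, map_zsmul, smul_eq_mul]
  have fE : ∀ i, S.B F (E i) = 0 := by
    rintro (i | i)
    · exact H.FY i
    · rw [eA, H.FA, H.FF, mul_zero, add_zero]
  have oE : ∀ i j, S.B (E i) (E j) = if i = j then -1 else 0 := by
    have h1 : ∀ i j, S.B (E (.inl i)) (E (.inr j)) = 0 := fun i j => by
      rw [eA, S.symm _ F, fE, S.symm, mul_zero, add_zero]
      exact H.AY j i
    rintro (i | i) (j | j)
    · simp only [Sum.inl.injEq]
      exact H.oY i j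
    · rw [h1, if_neg (by simp)]
    · rw [S.symm, h1, if_neg (by simp)]
    · rw [eA, S.symm _ F, fE, S.symm, eA, S.symm _ F, H.FA, S.symm, H.oA]
      simp only [Sum.inr.injEq, mul_zero, add_zero]
  have uY : ∀ i, S.B u (Y i) = 0 := fun i => by rw [u0, H.eY, H.FY, mul_zero, mul_zero, add_zero]
  have xE : ∀ i, S.B X (E i) = -1 := by
    rintro (i | i)
    · change S.B X (Y i) = -1
      rw [x0, H.KY, uY, mul_zero, sub_zero]
    · rw [eA, xF, mul_comm, hn]
  have k0 : ∀ x, S.B (X - ∑ i, E i) x = S.B X x - ∑ i, S.B (E i) x := fun x => by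
    rw [map_sub, map_sum, AddMonoidHom.sub_apply, AddMonoidHom.finsetSum_apply]
  have kE : ∀ i, S.B (X - ∑ i, E i) (E i) = 0 := fun i => by
    rw [k0, xE]
    simp [oE]
  have kk : S.B (X - ∑ i, E i) (X - ∑ i, E i) = S.B S.K S.K + 7 + r := by
    rw [k0, S.symm X, k0, xx]
    simp only [S.symm (E _), kE, xE, Finset.sum_const, Finset.card_univ, Fintype.card_sum,
      Fintype.card_fin, nsmul_eq_mul]
    push_cast
    ring
  have uA : ∀ i, S.B e (A i) = 0 → S.B S.K (A i) = -1 → S.B u (E (.inr i)) = 0 := fun i h1 h2 => by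
    have h3 : S.B u (A i) = 0 := by rw [u0, h1, H.FA, mul_zero, mul_zero, add_zero]
    have h4 := hn i
    rw [x0, h2, h3] at h4
    rw [eA, h3, show n i = 0 by omega, zero_mul, add_zero]
  refine ⟨⟨u, X - ∑ i, E i, F, e, E, by rw [hX]; abel, oE, kE, fE, uY, uA 0 H.e0 H.K0,
    uA 1 H.e1 H.K1, kk, ?_, ?_, H.FF, by rw [H.ee]; exact one_pos, H.eF,
    fun g h1 h2 h3 => hm _ (H.snoc h1 (fun i => h2 (.inl i)) (fun i => ?_) h3), H.posF⟩⟩
  · have := H.low
    omega
  · rw [k0, xF]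
    simp [S.symm _ F, fE]
  · have h4 := h2 (.inr i)
    rwa [eA, h1, mul_zero, add_zero] at h4

theorem exists_cf (hR : ¬ S.Ruled) (hK : S.B S.K S.K ≤ -12) : ∃ r, Nonempty (S.Cf r) := by
  classical
  obtain ⟨R, E, h, H⟩ := S.mmp2 hR
  obtain ⟨r, F, e, Y, A, H⟩ := H.pre hK
  by_contra hcon
  push Not at hcon
  have h1 : ∀ n : ℕ, ∃ A, Pre S (r + n) F e Y A := by
    intro n
    induction n with
    | zero => exact ⟨A, H⟩
    | succ n ih =>
      obtain ⟨A', H'⟩ := ih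
      by_contra h2
      push Not at h2
      exact (hcon _).false (H'.cf h2).some
  obtain ⟨A', H'⟩ := h1 ((-S.B (S.K - S.B S.K F • e) (S.K - S.B S.K F • e)).toNat + 1)
  have h2 := H'.bound
  push_cast at h2
  omega

end Surf

end Vale.Agent.P297Z.Num
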