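import Vale.Agent.P297Z.Num.Cfg
import Vale.Agent.P297Z.Num.Harm
import Vale.Agent.P297Z.Eval.Mf

/-!
The fixed loci which survive the harmonic polynomial and the last class.
-/

namespace Vale.Agent.P297Z.Num

theorem tri_nonneg (m : ℤ) : 0 ≤ m * m + m := by
  rcases le_or_gt 0 m with h | h <;> nlinarith

theorem sq_add_sum {ι : Type} [Fintype ι] (m : ι → ℤ) : 0 ≤ ∑ i, m i * m i + ∑ i, m i := by
  rw [← Finset.sum_add_distrib]
  exact Finset.sum_nonneg fun i _ => tri_nonneg _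

theorem sq_sub_sum {ι : Type} [Fintype ι] (m : ι → ℤ) : 0 ≤ ∑ i, m i * m i - ∑ i, m i := by
  have h := sq_add_sum (-m)
  simp only [Pi.neg_apply, neg_mul_neg, Finset.sum_neg_distrib] at h
  exact h

theorem even_sq_add {ι : Type} [Fintype ι] (m : ι → ℤ) : Even (∑ i, m i * m i + ∑ i, m i) := by
  rw [← Finset.sum_add_distrib]
  refine Finset.even_sum _ fun i _ => ?_
  rw [← mul_add_one]
  exact Int.even_mul_succ_self _

theorem neg_of_sq_add {ι : Type} [Fintype ι] {m : ι → ℤ} (h : ∑ i, m i * m i + ∑ i, m i = 0)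
    (i : ι) : m i = 0 ∨ m i = -1 := by
  rw [← Finset.sum_add_distrib,
    Finset.sum_eq_zero_iff_of_nonneg fun i _ => tri_nonneg (m i)] at h
  have h1 := h i (Finset.mem_univ i)
  rw [← mul_add_one, mul_eq_zero] at h1
  omega

theorem hP_ne {m : Fin 5 → ℤ} (h : hP m ≠ 0) :
    2 ≤ ∑ i, m i * m i + ∑ i, m i ∧ 2 ≤ ∑ i, m i * m i - ∑ i, m i := by
  obtain ⟨k, hk⟩ := even_sq_add m
  have h1 := sq_add_sum m
  have h2 := sq_sub_sum m
  have h3 : ∑ i, m i * m i + ∑ i, m i ≠ 0 := fun h4 => h (hP_zero_neg (neg_of_sq_add h4))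
  have h4 : ∑ i, m i * m i - ∑ i, m i ≠ 0 := fun h4 => h (hP_zero_pos fun i => by
    have h5 := neg_of_sq_add (m := -m) (by
      simp only [Pi.neg_apply, neg_mul_neg, Finset.sum_neg_distrib]
      exact h4) i
    rw [Pi.neg_apply] at h5
    omega)
  omega

theorem mem_box {ι : Type} [Fintype ι] [DecidableEq ι] {m : ι → ℤ} (h : ∑ i, m i * m i ≤ 3) :
    m ∈ Fintype.piFinset fun _ : ι => ({-1, 0, 1} : Finset ℤ) := by
  rw [Fintype.mem_piFinset]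
  intro i
  have h1 : m i * m i ≤ ∑ i, m i * m i :=
    Finset.single_le_sum (f := fun i => m i * m i) (fun i _ => mul_self_nonneg _)
      (Finset.mem_univ i)
  have h2 : -2 < m i := by nlinarith
  have h3 : m i < 2 := by nlinarith
  simp only [Finset.mem_insert, Finset.mem_singleton]
  omega

/-- The conditions on the numerical type of a surviving locus. -/
def Cond (qY σY qA σA s : ℤ) (n : ℕ) : Prop :=
  2 ≤ qY + σY ∧ 2 ≤ qY - σY ∧ 1 ≤ qA ∧ qY + qA + n ≤ 4 ∧ qY + σY + (qA + σA) ≤ 2 * s ∧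
    qY + σY + (qA - σA) ≤ 2 * (4 - s)

instance (qY σY qA σA s : ℤ) (n : ℕ) : Decidable (Cond qY σY qA σA s n) := by
  unfold Cond
  infer_instance

/-- The table of values. -/
def tab (r qY qA σA s : ℤ) (n : ℕ) : ℤ :=
  if qY = 2 ∧ qA = 1 then
    if σA = 1 then
      if s = 2 then (if n = 1 then -14 - r else 23) else if n = 1 then 6 else 3 - r
    else if s = 1 then (if n = 1 then -2 - r else 11) else if n = 1 then 18 else -9 - r
  else 1

theorem coe_negOnePow (n : ℤ) : ((n.negOnePow : ℤˣ) : ℤ) = if n % 2 = 0 then 1 else -1 := by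
  split_ifs with h
  · rw [Int.negOnePow_even n (Int.even_iff.mpr h), Units.val_one]
  · rw [Int.negOnePow_odd n (Int.odd_iff.mpr (by omega)), Units.val_neg, Units.val_one]

theorem cond_cases {qY σY qA σA s : ℤ} {n n' : ℕ} (hc : Cond qY σY qA σA s n)
    (hn : qY + qA + n + n' = 4) (pY : Even (qY + σY)) (pA : Even (qA + σA)) (p1 : 0 ≤ qA + σA)
    (p2 : 0 ≤ qA - σA) :
    (qY = 2 ∧ σY = 0 ∧ qA = 1 ∧ (σA = 1 ∧ (s = 2 ∨ s = 3) ∨ σA = -1 ∧ (s = 1 ∨ s = 2)) ∧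
      (n = 1 ∧ n' = 0 ∨ n = 0 ∧ n' = 1)) ∨ (n = 0 ∧ n' = 0 ∧
      (qY = 3 ∧ σY = -1 ∧ qA = 1 ∧ (σA = 1 ∧ (s = 2 ∨ s = 3) ∨ σA = -1 ∧ (s = 1 ∨ s = 2)) ∨
      qY = 2 ∧ σY = 0 ∧ qA = 2 ∧ (σA = 2 ∧ s = 3 ∨ σA = 0 ∧ s = 2 ∨ σA = -2 ∧ s = 1))) := by
  obtain ⟨c1, c2, c3, c4, c5, c6⟩ := hc
  obtain ⟨a, ha⟩ := pY
  obtain ⟨b, hb⟩ := pA
  have h1 : qY = 2 ∧ qA = 1 ∨ qY = 3 ∧ qA = 1 ∨ qY = 2 ∧ qA = 2 := by omega
  rcases h1 with ⟨rfl, rfl⟩ | ⟨rfl, rfl⟩ | ⟨rfl, rfl⟩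
  · exact Or.inl ⟨rfl, by omega, rfl, by omega, by omega⟩
  · exact Or.inr ⟨by omega, by omega, Or.inl ⟨rfl, by omega, rfl, by omega⟩⟩
  · exact Or.inr ⟨by omega, by omega, Or.inr ⟨rfl, by omega, rfl, by omega⟩⟩

theorem mf_tab {Λ : Type} [AddCommGroup Λ] (B : Λ →+ Λ →+ ℤ) (symm : ∀ x y, B x y = B y x)
    (K lam D D' : Λ) (r qY σY qA σA s : ℤ) (n n' : ℕ) (hc : Cond qY σY qA σA s n)
    (hn : qY + qA + n + n' = 4) (pY : Even (qY + σY)) (pA : Even (qA + σA)) (p1 : 0 ≤ qA + σA)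
    (p2 : 0 ≤ qA - σA) (h11 : B D D = 4 * s - qY - qA) (h1K : B D K = 2 * s + σY + σA)
    (h1l : B D lam = -σY) (h12 : B D D' = 8 + σY + qY + qA)
    (h22 : B D' D' = 11 - 4 * s - 2 * σY - qY - qA) (h2K : B D' K = 3 - 2 * s - σY - σA)
    (h2l : B D' lam = 5 + σY) (hKK : B K K = -7 - r) (hKl : B K lam = 5) (hll : B lam lam = -5) :
    Eval.Mf B K lam D D' n n' = tab r qY qA σA s n := by
  have hcases := cond_cases hc hn pY pA p1 p2
  clear hc hn pY pA p1 p2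
  simp only [Eval.Mf, Eval.sgn, coe_negOnePow, Eval.chiN]
  rcases hcases with ⟨rfl, rfl, rfl, ⟨rfl, rfl | rfl⟩ | ⟨rfl, rfl | rfl⟩, ⟨rfl, rfl⟩ | ⟨rfl, rfl⟩⟩ |
    ⟨rfl, rfl, ⟨rfl, rfl, rfl, ⟨rfl, rfl | rfl⟩ | ⟨rfl, rfl | rfl⟩⟩ |
      ⟨rfl, rfl, rfl, ⟨rfl, rfl⟩ | ⟨rfl, rfl⟩ | ⟨rfl, rfl⟩⟩⟩ <;>
  · simp only [Eval.xc, Eval.Mi, Eval.top, tab, if_true, zero_ne_one, if_false,
      Matrix.cons_val, map_add, map_sub, map_neg, AddMonoidHom.add_apply, AddMonoidHom.sub_apply,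
      AddMonoidHom.neg_apply, symm K D, symm lam D, symm D' D, symm K D', symm lam D', symm lam K,
      h11, h1K, h1l, h12, h22, h2K, h2l, hKK, hKl, hll]
    norm_num
    try ring

theorem tail_sum (n : ℕ) (G : ℤ → ℤ → ℤ) (hG : ∀ a b, 2 ≤ a → G a b = 0) :
    ∑ m ∈ Fintype.piFinset fun _ : Fin n => ({-1, 0, 1} : Finset ℤ),
      G (∑ i, m i * m i) (∑ i, m i) = G 0 0 + n * (G 1 1 + G 1 (-1)) := by
  induction n generalizing G with
  | zero => simp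
  | succ n ih =>
    rw [sum_pi_succ]
    simp only [Fin.sum_univ_succ, Fin.cons_zero, Fin.cons_succ]
    rw [Finset.sum_insert (by decide), Finset.sum_pair (by decide),
      ih (fun a b => G (-1 * -1 + a) (-1 + b)) fun a b h => hG _ _ (by omega),
      ih (fun a b => G (0 * 0 + a) (0 + b)) fun a b h => hG _ _ (by omega),
      ih (fun a b => G (1 * 1 + a) (1 + b)) fun a b h => hG _ _ (by omega),
      hG (-1 * -1 + 1) _ (by norm_num), hG (-1 * -1 + 1) _ (by norm_num),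
      hG (1 * 1 + 1) _ (by norm_num), hG (1 * 1 + 1) _ (by norm_num)]
    norm_num
    ring

/-- The sum of the values over the multiples of the isotropic class and the places of the point. -/
def Wf (r qY σY qA σA : ℤ) : ℤ := ∑ x ∈ ({1, 2, 3} : Finset ℤ) ×ˢ ({0, 1} : Finset ℕ),
  if Cond qY σY qA σA x.1 x.2 then tab r qY qA σA x.1 x.2 else 0

theorem Wf_zero {r qY σY qA σA : ℤ}
    (h : ¬ (2 ≤ qY + σY ∧ 2 ≤ qY - σY ∧ 1 ≤ qA ∧ qY + qA ≤ 4)) : Wf r qY σY qA σA = 0 :=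
  Finset.sum_eq_zero fun x _ => if_neg fun h1 => h ⟨h1.1, h1.2.1, h1.2.2.1, by
    have h2 := h1.2.2.2.1
    omega⟩

theorem sum_three {V : Type} [AddCommMonoid V] (f : ℤ → V) :
    ∑ x ∈ ({-1, 0, 1} : Finset ℤ), f x = f (-1) + (f 0 + f 1) := by
  rw [Finset.sum_insert (by decide), Finset.sum_pair (by decide)]

theorem sum_six {V : Type} [AddCommMonoid V] (f : ℤ × ℕ → V) :
    ∑ x ∈ ({1, 2, 3} : Finset ℤ) ×ˢ ({0, 1} : Finset ℕ), f x =
      f (1, 0) + f (1, 1) + (f (2, 0) + f (2, 1) + (f (3, 0) + f (3, 1))) := by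
  rw [Finset.sum_product, Finset.sum_insert (by decide), Finset.sum_pair (by decide),
    Finset.sum_pair (by decide), Finset.sum_pair (by decide), Finset.sum_pair (by decide)]

theorem sum_Wf (r : ℕ) {qY σY : ℤ} (pY : Even (qY + σY)) :
    ∑ m ∈ Fintype.piFinset fun _ : Fin (r + 2) => ({-1, 0, 1} : Finset ℤ),
      (m 0 - m 1) ^ 2 * Wf r qY σY (∑ i, m i * m i) (∑ i, m i) = 8 * wt qY σY := by
  by_cases h : 2 ≤ qY + σY ∧ 2 ≤ qY - σY ∧ qY ≤ 3
  · have key : ∀ x y : ℤ, ∑ m ∈ Fintype.piFinset fun _ : Fin r => ({-1, 0, 1} : Finset ℤ),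
        (x - y) ^ 2 * Wf r qY σY (x * x + (y * y + ∑ i, m i * m i)) (x + (y + ∑ i, m i)) =
        (x - y) ^ 2 * Wf r qY σY (x * x + (y * y + 0)) (x + (y + 0)) +
          r * ((x - y) ^ 2 * Wf r qY σY (x * x + (y * y + 1)) (x + (y + 1)) +
            (x - y) ^ 2 * Wf r qY σY (x * x + (y * y + 1)) (x + (y + -1))) := fun x y =>
      tail_sum r (fun a b => (x - y) ^ 2 * Wf r qY σY (x * x + (y * y + a)) (x + (y + b)))
        fun a b ha => by
          by_cases h1 : x = 0 ∧ y = 0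
          · rw [h1.1, h1.2, sub_self, zero_pow two_ne_zero, zero_mul]
          · have h2 := mul_self_nonneg x
            have h3 := mul_self_nonneg y
            have h4 : x * x + y * y ≠ 0 := fun h5 => h1 (mul_self_add_mul_self_eq_zero.mp h5)
            rw [Wf_zero (by omega), mul_zero]
    rw [sum_pi_succ]
    simp only [sum_pi_succ _ r, Fin.sum_univ_succ, Fin.cons_zero, Fin.cons_succ, Fin.cons_one,
      key]
    obtain ⟨a, ha⟩ := pY
    have h1 : qY = 2 ∧ σY = 0 ∨ qY = 3 ∧ σY = 1 ∨ qY = 3 ∧ σY = -1 := by omega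
    rcases h1 with ⟨rfl, rfl⟩ | ⟨rfl, rfl⟩ | ⟨rfl, rfl⟩ <;>
    · simp only [sum_three, Wf, sum_six]
      norm_num [Cond, tab, wt]
      try ring
  · rw [Finset.sum_eq_zero fun m _ => by rw [Wf_zero (by omega), mul_zero], wt, if_neg (by omega),
      if_neg (by omega), mul_zero]

end Vale.Agent.P297Z.Num
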