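import Vale.Agent.P297Z.Num.Enum

/-!
The values of the surviving loci for a shifted canonical class.
-/

set_option linter.unusedSectionVars false
set_option linter.unusedSimpArgs false

namespace Vale.Agent.P297Z.Num

/-- The table of values. -/
def tab2 (r N U z b qY qA σA s : ℤ) (n : ℕ) : ℤ :=
  if qY = 2 ∧ qA = 1 then
    if σA = 1 then
      if s = 2 then (if n = 1 then -14 - r - U - 6 * z + 4 * b else 23 + N + U + 6 * z - 4 * b)
      else if n = 1 then 6 + N + U - 6 * z + 8 * b else 3 - r - U + 6 * z - 8 * b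
    else if s = 1 then (if n = 1 then -2 - r - U - 6 * z + 4 * b else 11 + N + U + 6 * z - 4 * b)
      else if n = 1 then 18 + N + U - 6 * z + 8 * b else -9 - r - U + 6 * z - 8 * b
  else 1

theorem chiN_of {Λ : Type} [AddCommGroup Λ] (B : Λ →+ Λ →+ ℤ) (K D : Λ) (k : ℤ)
    (h : B D D - B K D = 2 * k) : Eval.chiN B K D = 1 + k := by
  rw [Eval.chiN, h, Int.mul_ediv_cancel_left _ two_ne_zero]

theorem sgn_aux (s y a σY σA qY qA b z : ℤ) :
    (1 + (2 * s + σY + σA - 2 * qY - 2 * qA - 4 - 2 * (b - z)) +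
      (1 + (4 - s - y - (a - σA) + σY))) % 2 = 0 ↔ (s - y - a) % 2 = 0 := by
  omega

section

variable {Λ : Type} [AddCommGroup Λ] (B : Λ →+ Λ →+ ℤ) (symm : ∀ x y, B x y = B y x)
  (K lam D D' : Λ) (r N U z b qY σY qA σA s y a : ℤ) (hy : qY + σY = y + y) (ha : qA + σA = a + a)
  (h11 : B D D = N + 4 * s - qY - qA + 2 * z + U)
  (h1K : B D K = N + 2 * s + σY + σA + 2 * z + U)
  (h1l : B D lam = -σY) (h12 : B D D' = N + 8 + σY + qY + qA + 2 * b + U)
  (h22 : B D' D' = N + 11 - 4 * s - 2 * σY - qY - qA + 2 * (2 * b - z) + U)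
  (h2K : B D' K = N + 3 - 2 * s - σY - σA + 2 * (2 * b - z) + U)
  (h2l : B D' lam = 5 + σY) (hKK : B K K = N - 7 - r) (hKl : B K lam = 5)
  (hll : B lam lam = -5)

include symm hy ha h11 h1K h1l h12 h22 h2K h2l hKK hKl hll

theorem chi_vals : Eval.chiN B K D = 1 + (s - y - a) ∧
    Eval.chiN B K D' = 1 + (4 - s - y - (a - σA)) ∧
    Eval.chiN B K (lam - D + D') =
      1 + (2 * s + σY + σA - 2 * qY - 2 * qA - 4 - 2 * (b - z)) ∧
    Eval.chiN B K (-(lam - D + D')) =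
      1 + (-2 * s - σY - σA - 2 * qY - 2 * qA + 4 + 2 * (b - z)) ∧
    Eval.chiN B K (D - lam) = 1 + (s - y - a + σY) ∧
    Eval.chiN B K (D' + lam) = 1 + (4 - s - y - (a - σA) + σY) := by
  refine ⟨chiN_of _ _ _ _ ?_, chiN_of _ _ _ _ ?_, chiN_of _ _ _ _ ?_, chiN_of _ _ _ _ ?_,
    chiN_of _ _ _ _ ?_, chiN_of _ _ _ _ ?_⟩ <;>
  · simp only [map_add, map_sub, map_neg, AddMonoidHom.add_apply, AddMonoidHom.sub_apply,
      AddMonoidHom.neg_apply, symm K D, symm lam D, symm D' D, symm K D', symm lam D', symm lam K,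
      h11, h1K, h1l, h12, h22, h2K, h2l, hKK, hKl, hll]
    linarith

theorem mf_Mi (n n' : ℕ) : Eval.Mf B K lam D D' n n' =
    (if (s - y - a) % 2 = 0 then 1 else -1) *
      Eval.Mi n n' (s - y - a) (4 - s - y - (a - σA)) (2 - 4 * qY - 4 * qA) (1 + (s - y - a + σY))
        (1 + (4 - s - y - (a - σA) + σY))
        (if n = 1 then -2 - r - U - 2 * z - qY - σY - qA - 2 * σA
          else -2 - r - U + 2 * z - 4 * b - qY + σY - qA + 2 * σA)
        (if n = 1 then -7 - r - U - 6 * z + 4 * b - 4 * qY - 5 * σY - 4 * qA - 5 * σA - 2 * s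
          else 10 + r + U - 6 * z + 8 * b + 4 * qY - σY + 4 * qA - 5 * σA - 2 * s)
        (if n = 1 then -2 - r - U - 6 * z + 4 * b - 4 * qY - σY - 4 * qA - 5 * σA - 2 * s
          else 15 + r + U - 6 * z + 8 * b + 4 * qY - 5 * σY + 4 * qA - 5 * σA - 2 * s)
        (if n = 1 then -17 - N + r + 12 * z - 12 * b + 12 * qY + 6 * σY + 12 * qA + 6 * σA + 12 * s
          else 31 - N + r - 12 * z + 12 * b + 12 * qY - 6 * σY + 12 * qA - 6 * σA - 12 * s) := by
  obtain ⟨c1, c2, c3, c4, c5, c6⟩ := chi_vals B symm K lam D D' r N U z b qY σY qA σA s y a hy ha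
    h11 h1K h1l h12 h22 h2K h2l hKK hKl hll
  have c7 : Eval.sgn B K lam D D' = if (s - y - a) % 2 = 0 then 1 else -1 := by
    rw [Eval.sgn, coe_negOnePow, c3, c6]
    exact if_congr (sgn_aux s y a σY σA qY qA b z) rfl rfl
  simp only [Eval.Mf, c1, c2, c3, c4, c5, c6, c7]
  congr 2
  · ring
  · ring
  · ring
  all_goals
    rw [Eval.xc]
    split_ifs <;>
    · simp only [Matrix.cons_val]
      simp only [map_add, map_sub, map_neg, AddMonoidHom.add_apply, AddMonoidHom.sub_apply,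
        AddMonoidHom.neg_apply, symm K D, symm lam D, symm D' D, symm K D', symm lam D', symm lam K,
        h11, h1K, h1l, h12, h22, h2K, h2l, hKK, hKl, hll]
      ring

end

theorem mf_tab2 {Λ : Type} [AddCommGroup Λ] (B : Λ →+ Λ →+ ℤ) (symm : ∀ x y, B x y = B y x)
    (K lam D D' : Λ) (r N U z b qY σY qA σA s : ℤ) (n n' : ℕ) (hc : Cond qY σY qA σA s n)
    (hn : qY + qA + n + n' = 4) (pY : Even (qY + σY)) (pA : Even (qA + σA)) (p1 : 0 ≤ qA + σA)
    (p2 : 0 ≤ qA - σA) (h11 : B D D = N + 4 * s - qY - qA + 2 * z + U)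
    (h1K : B D K = N + 2 * s + σY + σA + 2 * z + U)
    (h1l : B D lam = -σY) (h12 : B D D' = N + 8 + σY + qY + qA + 2 * b + U)
    (h22 : B D' D' = N + 11 - 4 * s - 2 * σY - qY - qA + 2 * (2 * b - z) + U)
    (h2K : B D' K = N + 3 - 2 * s - σY - σA + 2 * (2 * b - z) + U)
    (h2l : B D' lam = 5 + σY) (hKK : B K K = N - 7 - r) (hKl : B K lam = 5)
    (hll : B lam lam = -5) :
    Eval.Mf B K lam D D' n n' = tab2 r N U z b qY qA σA s n := by
  have hcases := cond_cases hc hn pY pA p1 p2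
  obtain ⟨y, hy⟩ := pY
  obtain ⟨a, ha⟩ := pA
  rw [mf_Mi B symm K lam D D' r N U z b qY σY qA σA s y a hy ha h11 h1K h1l h12 h22 h2K h2l hKK hKl
    hll]
  clear hc hn p1 p2 h11 h1K h1l h12 h22 h2K h2l hKK hKl hll
  obtain rfl : y = (qY + σY) / 2 := by omega
  obtain rfl : a = (qA + σA) / 2 := by omega
  rcases hcases with ⟨rfl, rfl, rfl, ⟨rfl, rfl | rfl⟩ | ⟨rfl, rfl | rfl⟩, ⟨rfl, rfl⟩ | ⟨rfl, rfl⟩⟩ |
    ⟨rfl, rfl, ⟨rfl, rfl, rfl, ⟨rfl, rfl | rfl⟩ | ⟨rfl, rfl | rfl⟩⟩ |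
      ⟨rfl, rfl, rfl, ⟨rfl, rfl⟩ | ⟨rfl, rfl⟩ | ⟨rfl, rfl⟩⟩⟩ <;>
  · norm_num [Eval.Mi, Eval.top, tab2]
    try ring

/-- The sum of the values over the multiples of the isotropic class and the places of the point. -/
theorem Wf_eq (r N U b : ℤ) (z : ℤ → ℤ) (qY σY qA σA : ℤ) :
    ∑ x ∈ ({1, 2, 3} : Finset ℤ) ×ˢ ({0, 1} : Finset ℕ),
      (if Cond qY σY qA σA x.1 x.2 then tab2 r N U (z x.1) b qY qA σA x.1 x.2 else 0) =
      Wf (r - N) qY σY qA σA := by
  by_cases h : qY = 2 ∧ qA = 1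
  · obtain ⟨rfl, rfl⟩ := h
    have h1 : ∀ s, (if Cond 2 σY 1 σA s 0 then tab2 r N U (z s) b 2 1 σA s 0 else 0) +
        (if Cond 2 σY 1 σA s 1 then tab2 r N U (z s) b 2 1 σA s 1 else 0) =
        (if Cond 2 σY 1 σA s 0 then tab (r - N) 2 1 σA s 0 else 0) +
        (if Cond 2 σY 1 σA s 1 then tab (r - N) 2 1 σA s 1 else 0) := fun s => by
      have h2 : Cond 2 σY 1 σA s 1 ↔ Cond 2 σY 1 σA s 0 := by simp [Cond]
      simp only [h2, tab2, tab, and_self, if_true, zero_ne_one, if_false]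
      split_ifs <;> ring
    rw [Wf, sum_six, sum_six, h1, h1, h1]
  · simp only [Wf, tab2, tab, if_neg h]

/-- The indicator of the roots. -/
def wt0 (q s : ℤ) : ℤ := if q = 2 ∧ s = 0 then 1 else 0

theorem sum_Wf2 (r : ℕ) (N : ℤ) {qY σY : ℤ} (pY : Even (qY + σY)) :
    ∑ m ∈ Fintype.piFinset fun _ : Fin (r + 2) => ({-1, 0, 1} : Finset ℤ),
      (m 0 - m 1) ^ 2 * Wf (r - N) qY σY (∑ i, m i * m i) (∑ i, m i) =
      8 * (wt qY σY + N * wt0 qY σY) := by
  by_cases h : 2 ≤ qY + σY ∧ 2 ≤ qY - σY ∧ qY ≤ 3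
  · have key : ∀ x y : ℤ, ∑ m ∈ Fintype.piFinset fun _ : Fin r => ({-1, 0, 1} : Finset ℤ),
        (x - y) ^ 2 * Wf (r - N) qY σY (x * x + (y * y + ∑ i, m i * m i)) (x + (y + ∑ i, m i)) =
        (x - y) ^ 2 * Wf (r - N) qY σY (x * x + (y * y + 0)) (x + (y + 0)) +
          r * ((x - y) ^ 2 * Wf (r - N) qY σY (x * x + (y * y + 1)) (x + (y + 1)) +
            (x - y) ^ 2 * Wf (r - N) qY σY (x * x + (y * y + 1)) (x + (y + -1))) := fun x y =>
      tail_sum r (fun a b => (x - y) ^ 2 * Wf (r - N) qY σY (x * x + (y * y + a)) (x + (y + b)))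
        fun a b ha => by
          by_cases h1 : x = 0 ∧ y = 0
          · rw [h1.1, h1.2, sub_self, zero_pow two_ne_zero, zero_mul]
          · have h2 := mul_self_nonneg x
            have h3 := mul_self_nonneg y
            have h4 : x * x + y * y ≠ 0 := fun h5 => h1 (mul_self_add_mul_self_eq_zero.mp h5)
            rw [Wf_zero (by omega), mul_zero]
    rw [sum_pi_succ]
    simp only [sum_pi_succ _ r, Fin.sum_univ_succ, Fin.cons_zero, Fin.cons_succ, Fin.cons_one,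
      key]
    obtain ⟨a, ha⟩ := pY
    have h1 : qY = 2 ∧ σY = 0 ∨ qY = 3 ∧ σY = 1 ∨ qY = 3 ∧ σY = -1 := by omega
    rcases h1 with ⟨rfl, rfl⟩ | ⟨rfl, rfl⟩ | ⟨rfl, rfl⟩ <;>
    · simp only [sum_three, Wf, sum_six]
      norm_num [Cond, tab, wt, wt0]
      try ring
  · rw [Finset.sum_eq_zero fun m _ => by rw [Wf_zero (by omega), mul_zero], wt, if_neg (by omega),
      if_neg (by omega), wt0, if_neg (by omega), mul_zero, add_zero, mul_zero]

theorem PG_root : ∑ a ∈ ({-1, 0, 1} : Finset ℤ), ∑ b ∈ ({-1, 0, 1} : Finset ℤ),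
    ∑ c ∈ ({-1, 0, 1} : Finset ℤ), ∑ d ∈ ({-1, 0, 1} : Finset ℤ), ∑ e ∈ ({-1, 0, 1} : Finset ℤ),
    (if wt0 (a * a + b * b + c * c + d * d + e * e) (a + b + c + d + e) = 0 then 0 else
      wt0 (a * a + b * b + c * c + d * d + e * e) (a + b + c + d + e) * PG a b c d e) =
    15523200000 := by
  decide +kernel

theorem hP_root : ∑ m ∈ Fintype.piFinset fun _ : Fin 5 => ({-1, 0, 1} : Finset ℤ),
    (wt0 (∑ i, m i * m i) (∑ i, m i) : ℂ) * hP m = 15523200000 := by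
  have h1 := congrArg GaussianInt.toComplex PG_root
  simp only [map_sum, map_ofNat] at h1
  rw [← h1]
  simp only [sum_pi_succ, Fintype.piFinset_of_isEmpty, Finset.univ_unique, Finset.sum_singleton]
  refine Finset.sum_congr rfl fun a _ => Finset.sum_congr rfl fun b _ =>
    Finset.sum_congr rfl fun c _ => Finset.sum_congr rfl fun d _ =>
    Finset.sum_congr rfl fun e _ => ?_
  rw [hP_eq, Fin.sum_univ_five, Fin.sum_univ_five]
  change (wt0 (a * a + b * b + c * c + d * d + e * e) (a + b + c + d + e) : ℂ) *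
    GaussianInt.toComplex (PG a b c d e) = _
  split_ifs with h2
  · rw [h2, map_zero, Int.cast_zero, zero_mul]
  · rw [map_mul, map_intCast]

end Vale.Agent.P297Z.Num
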