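import Vale.Agent.P297Z.Num.Enum

/-!
The numerical classes of the surviving loci.
-/

namespace Vale.Agent.P297Z.Num.Surf.Cfg

variable {Λ Cv : Type} [AddCommGroup Λ] {S : Surf Λ Cv} {r : ℕ} (c : S.Cfg r)

/-- the first Chern class of the quotient -/
def be : Λ := 2 • c.Kp + 4 • c.F + ∑ i : Fin 5, c.E (.inl i)

/-- the first line bundle -/
def la : Λ := -∑ i : Fin 5, c.E (.inl i)

/-- the last class -/
def uu : Λ := c.E (.inr 0) - c.E (.inr 1)

/-- the multiplicities along the first five curves -/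
def mY (D : Λ) (i : Fin 5) : ℤ := S.B (c.E (.inl i)) D

/-- the multiplicities along the other curves -/
def mA (D : Λ) (i : Fin (r + 2)) : ℤ := S.B (c.E (.inr i)) D

/-- the class with given multiplicities -/
def rep (y : Fin 5 → ℤ) (a : Fin (r + 2) → ℤ) (s : ℤ) : Λ :=
  c.Kp + s • c.F - (∑ i, y i • c.E (.inl i) + ∑ i, a i • c.E (.inr i))

theorem K_mul (D : Λ) : S.B S.K D = S.B c.Kp D + ∑ i, c.mY D i + ∑ i, c.mA D i := by
  rw [c.hK, Fintype.sum_sum_type]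
  simp only [map_add, map_sum, AddMonoidHom.add_apply, AddMonoidHom.finsetSum_apply, mY, mA,
    add_assoc]

theorem be_mul (D : Λ) : S.B c.be D = 2 * S.B c.Kp D + 4 * S.B c.F D + ∑ i, c.mY D i := by
  simp only [be, map_add, map_sum, map_nsmul, AddMonoidHom.add_apply, AddMonoidHom.nsmul_apply,
    AddMonoidHom.finsetSum_apply, mY, nsmul_eq_mul, Nat.cast_ofNat]

theorem la_mul (D : Λ) : S.B c.la D = -∑ i, c.mY D i := by
  simp only [la, map_neg, map_sum, AddMonoidHom.neg_apply, AddMonoidHom.finsetSum_apply, mY]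

theorem uu_mul (D : Λ) : S.B c.uu D = c.mA D 0 - c.mA D 1 := by
  simp only [uu, map_sub, AddMonoidHom.sub_apply, mA]

theorem rep_mul (y : Fin 5 → ℤ) (a : Fin (r + 2) → ℤ) (s : ℤ) (D : Λ) : S.B (c.rep y a s) D =
    S.B c.Kp D + s * S.B c.F D - (∑ i, y i * c.mY D i + ∑ i, a i * c.mA D i) := by
  simp only [rep, map_add, map_sub, map_sum, map_zsmul, AddMonoidHom.add_apply,
    AddMonoidHom.sub_apply, AddMonoidHom.zsmul_apply, AddMonoidHom.finsetSum_apply, mY, mA,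
    smul_eq_mul]

theorem pr_mul (D x : Λ) : S.B (S.pr c.E D) x =
    S.B D x + (∑ i, c.mY D i * c.mY x i + ∑ i, c.mA D i * c.mA x i) := by
  rw [pr_formula, Fintype.sum_sum_type]
  simp only [mY, mA, S.symm (c.E _)]

theorem mY_Kp (i : Fin 5) : c.mY c.Kp i = 0 := (S.symm _ _).trans (c.KE _)
theorem mA_Kp (i : Fin (r + 2)) : c.mA c.Kp i = 0 := (S.symm _ _).trans (c.KE _)
theorem mY_F (i : Fin 5) : c.mY c.F i = 0 := (S.symm _ _).trans (c.FE _)
theorem mA_F (i : Fin (r + 2)) : c.mA c.F i = 0 := (S.symm _ _).trans (c.FE _)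
theorem mY_P (i : Fin 5) : c.mY c.P i = 0 := (S.symm _ _).trans (c.PE _)
theorem mA_P (i : Fin (r + 2)) : c.mA c.P i = 0 := (S.symm _ _).trans (c.PE _)
theorem FK : S.B c.F c.Kp = 2 := (S.symm _ _).trans c.KF

theorem mY_l (i j : Fin 5) : c.mY (c.E (.inl j)) i = if i = j then -1 else 0 := by
  simp only [mY, c.orth, Sum.inl.injEq]
theorem mY_r (i : Fin 5) (j : Fin (r + 2)) : c.mY (c.E (.inr j)) i = 0 := by
  simp only [mY, c.orth, reduceCtorEq, if_false]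
theorem mA_l (i : Fin (r + 2)) (j : Fin 5) : c.mA (c.E (.inl j)) i = 0 := by
  simp only [mA, c.orth, reduceCtorEq, if_false]
theorem mA_r (i j : Fin (r + 2)) : c.mA (c.E (.inr j)) i = if i = j then -1 else 0 := by
  simp only [mA, c.orth, Sum.inr.injEq]

theorem mY_be (i : Fin 5) : c.mY c.be i = -1 := by
  rw [mY, S.symm, be_mul, c.KE, c.FE]
  simp [mY_l]
theorem mA_be (i : Fin (r + 2)) : c.mA c.be i = 0 := by
  rw [mA, S.symm, be_mul, c.KE, c.FE]
  simp [mY_r]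
theorem mY_la (i : Fin 5) : c.mY c.la i = 1 := by
  rw [mY, S.symm, la_mul]
  simp [mY_l]
theorem mA_la (i : Fin (r + 2)) : c.mA c.la i = 0 := by
  rw [mA, S.symm, la_mul]
  simp [mY_r]
theorem mY_K (i : Fin 5) : c.mY S.K i = -1 := by
  rw [mY, S.symm, c.K_mul, c.KE]
  simp [mY_l, mA_l]
theorem mA_K (i : Fin (r + 2)) : c.mA S.K i = -1 := by
  rw [mA, S.symm, c.K_mul, c.KE]
  simp [mY_r, mA_r]
theorem Kp_be : S.B c.Kp c.be = 8 := by
  rw [S.symm, be_mul, c.KK, c.FK]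
  simp [mY_Kp]
theorem F_be : S.B c.F c.be = 4 := by
  rw [S.symm, be_mul, c.KF, c.FF]
  simp [mY_F]
theorem Kp_la : S.B c.Kp c.la = 0 := by
  rw [S.symm, la_mul]
  simp [mY_Kp]
theorem Kp_K : S.B c.Kp S.K = 0 := by
  rw [S.symm, c.K_mul, c.KK]
  simp [mY_Kp, mA_Kp]
include c in
theorem K_K : S.B S.K S.K = -7 - r := by
  rw [c.K_mul, c.Kp_K]
  simp [mY_K, mA_K]
  ring
theorem K_la : S.B S.K c.la = 5 := by
  rw [c.K_mul, c.Kp_la]
  simp [mY_la, mA_la]
theorem K_be : S.B S.K c.be = 3 := by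
  rw [c.K_mul, c.Kp_be]
  simp [mY_be, mA_be]
theorem la_la : S.B c.la c.la = -5 := by
  rw [la_mul]
  simp [mY_la]
theorem la_be : S.B c.la c.be = 5 := by
  rw [la_mul]
  simp [mY_be]
theorem be_be : S.B c.be c.be = 27 := by
  rw [be_mul, c.Kp_be, c.F_be]
  simp [mY_be]

section
variable {c} {D D' : Λ} {y : Fin 5 → ℤ} {a : Fin (r + 2) → ℤ} {s : ℤ}

/-- The numbers of a class which is numerically equivalent to a standard class. -/
theorem nums (h : ∀ x, S.B D x = S.B (c.rep y a s) x) : c.mY D = y ∧ c.mA D = a ∧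
    S.B c.Kp D = 2 * s ∧ S.B c.F D = 2 ∧ S.B c.P D = S.B c.P S.K + s * S.B c.P c.F ∧
    S.B D D = 4 * s - ∑ i, y i * y i - ∑ i, a i * a i := by
  have h1 : c.mY D = y := funext fun i => by
    rw [mY, S.symm, h, rep_mul, c.KE, c.FE]
    simp [mY_l, mA_l]
  have h2 : c.mA D = a := funext fun i => by
    rw [mA, S.symm, h, rep_mul, c.KE, c.FE]
    simp [mY_r, mA_r]
  have h3 : S.B c.Kp D = 2 * s := by
    rw [S.symm, h, rep_mul, c.KK, c.FK]
    simp [mY_Kp, mA_Kp, mul_comm]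
  have h4 : S.B c.F D = 2 := by
    rw [S.symm, h, rep_mul, c.KF, c.FF]
    simp [mY_F, mA_F]
  refine ⟨h1, h2, h3, h4, ?_, ?_⟩
  · rw [S.symm, h, rep_mul, S.symm c.P S.K, c.K_mul, S.symm c.P c.F]
    simp [mY_P, mA_P]
  · rw [h, rep_mul, h1, h2, h3, h4]
    ring

theorem other (h' : ∀ x, S.B (D + D') x = S.B c.be x) (x : Λ) :
    S.B x D' = S.B x c.be - S.B x D := by
  rw [S.symm x c.be, ← h', S.symm _ x, map_add, add_sub_cancel_left]

theorem gram (h : ∀ x, S.B D x = S.B (c.rep y a s) x) (h' : ∀ x, S.B (D + D') x = S.B c.be x) :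
    S.B D S.K = 2 * s + ∑ i, y i + ∑ i, a i ∧ S.B D c.la = -∑ i, y i ∧
    S.B D D' = 8 + ∑ i, y i + ∑ i, y i * y i + ∑ i, a i * a i ∧
    S.B D' D' = 11 - 4 * s - 2 * ∑ i, y i - ∑ i, y i * y i - ∑ i, a i * a i ∧
    S.B D' S.K = 3 - 2 * s - ∑ i, y i - ∑ i, a i ∧ S.B D' c.la = 5 + ∑ i, y i := by
  obtain ⟨h1, h2, h3, h4, -, h6⟩ := nums h
  have a1 := c.K_mul D
  have a2 := c.la_mul D
  have a3 := c.be_mul D
  rw [h1] at a1 a2 a3
  rw [h2] at a1
  have b1 := other h' D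
  have b2 := other h' D'
  have b3 := other h' S.K
  have b4 := other h' c.la
  have b5 := other h' c.be
  rw [c.K_be] at b3
  rw [c.la_be] at b4
  rw [c.be_be] at b5
  rw [S.symm D c.be] at b1
  rw [S.symm D' c.be, S.symm D' D] at b2
  rw [S.symm D S.K, S.symm D c.la, S.symm D' S.K, S.symm D' c.la]
  refine ⟨?_, ?_, ?_, ?_, ?_, ?_⟩ <;> linarith

theorem facts (h : ∀ x, S.B D x = S.B (c.rep y a s) x) (h' : ∀ x, S.B (D + D') x = S.B c.be x)
    {n : ℕ} (hc : Cond (∑ i, y i * y i) (∑ i, y i) (∑ i, a i * a i) (∑ i, a i) s n) :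
    S.Sec D ∧ S.Sec D' ∧ 7 + S.B (c.la - D) D' = 4 - ∑ i, y i * y i - ∑ i, a i * a i ∧
      1 ≤ Eval.chiN S.B S.K D ∧ 1 ≤ Eval.chiN S.B S.K D' ∧
      Eval.chiN S.B S.K D + Eval.chiN S.B S.K D' ≤ 3 := by
  obtain ⟨-, -, -, -, h5, h6⟩ := nums h
  obtain ⟨g1, g2, g3, g4, g5, g6⟩ := gram h h'
  obtain ⟨c1, c2, c3, c4, c5, c6⟩ := hc
  have a1 := sq_add_sum a
  have a2 := sq_sub_sum a
  have a3 := c.PF
  have a4 : S.B c.P c.be = 2 * S.B c.P S.K + 4 * S.B c.P c.F := by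
    rw [S.symm, be_mul, S.symm c.P S.K, c.K_mul, S.symm c.P c.F]
    simp [mY_P, mA_P]
  rw [S.symm D S.K] at g1
  rw [S.symm D' S.K] at g5
  refine ⟨(S.rr D (by omega)).resolve_right fun h7 => ?_,
    (S.rr D' (by omega)).resolve_right fun h7 => ?_, ?_, ?_, ?_, ?_⟩
  · have h8 := c.nef.eff (eff_of_sec h7)
    rw [map_sub, h5] at h8
    have h9 := mul_pos (show 0 < s by omega) a3
    omega
  · have h8 := c.nef.eff (eff_of_sec h7)
    rw [map_sub, other h', h5, a4] at h8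
    have h9 := mul_pos (show 0 < 4 - s by omega) a3
    linarith
  · rw [map_sub, AddMonoidHom.sub_apply, S.symm c.la, g3, g6]
    ring
  · rw [Eval.chiN]
    omega
  · rw [Eval.chiN]
    omega
  · rw [Eval.chiN, Eval.chiN]
    omega

theorem mf_eq (h : ∀ x, S.B D x = S.B (c.rep y a s) x) (h' : ∀ x, S.B (D + D') x = S.B c.be x)
    {n n' : ℕ} (hc : Cond (∑ i, y i * y i) (∑ i, y i) (∑ i, a i * a i) (∑ i, a i) s n)
    (hn : (n + n' : ℤ) = 7 + S.B (c.la - D) D') :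
    Eval.Mf S.B S.K c.la D D' n n' = tab r (∑ i, y i * y i) (∑ i, a i * a i) (∑ i, a i) s n := by
  obtain ⟨g1, g2, g3, g4, g5, g6⟩ := gram h h'
  have h1 := (facts h h' hc).2.2.1
  exact mf_tab S.B S.symm S.K c.la D D' r _ _ _ _ s n n' hc (by omega) (even_sq_add y)
    (even_sq_add a) (sq_add_sum a) (sq_sub_sum a) (nums h).2.2.2.2.2 g1 g2 g3 g4 g5 g6 c.K_K
    c.K_la c.la_la

/-- The enumeration. -/
theorem surv (hD : S.Sec D) (hD' : S.Sec D') (h' : ∀ x, S.B (D + D') x = S.B c.be x) {n n' : ℕ}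
    (hn : (n + n' : ℤ) = 7 + S.B (c.la - D) D') (h1 : 1 ≤ Eval.chiN S.B S.K D)
    (h2 : 1 ≤ Eval.chiN S.B S.K D') (hp : hP (c.mY D) ≠ 0) (hu : S.B c.uu D ≠ 0) :
    ∃ s, (∀ x, S.B D x = S.B (c.rep (c.mY D) (c.mA D) s) x) ∧
      Cond (∑ i, c.mY D i * c.mY D i) (∑ i, c.mY D i) (∑ i, c.mA D i * c.mA D i) (∑ i, c.mA D i)
        s n := by
  obtain ⟨p1, p2⟩ := hP_ne hp
  have a1 := sq_add_sum (c.mA D)
  have a2 := sq_sub_sum (c.mA D)
  rw [Eval.chiN] at h1 h2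
  have a3 : 1 ≤ ∑ i, c.mA D i * c.mA D i := by
    by_contra h3
    have h4 := (Finset.sum_eq_zero_iff_of_nonneg fun i _ => mul_self_nonneg (c.mA D i)).mp
      (show ∑ i, c.mA D i * c.mA D i = 0 by omega)
    rw [uu_mul, mul_self_eq_zero.mp (h4 0 (Finset.mem_univ _)),
      mul_self_eq_zero.mp (h4 1 (Finset.mem_univ _)), sub_zero] at hu
    exact hu rfl
  have y1 : ∀ i, c.mY D' i = -1 - c.mY D i := fun i => by
    rw [← c.mY_be i]
    exact other h' _
  have y2 : ∀ i, c.mA D' i = -c.mA D i := fun i => by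
    rw [← zero_sub, ← c.mA_be i]
    exact other h' _
  have y3 : ∑ i, c.mY D' i * c.mY D' i + ∑ i, c.mY D' i =
      ∑ i, c.mY D i * c.mY D i + ∑ i, c.mY D i := by
    rw [← Finset.sum_add_distrib, ← Finset.sum_add_distrib]
    exact Finset.sum_congr rfl fun i _ => by rw [y1]; ring
  have y4 : ∑ i, c.mA D' i * c.mA D' i + ∑ i, c.mA D' i =
      ∑ i, c.mA D i * c.mA D i - ∑ i, c.mA D i := by
    simp only [y2, neg_mul_neg, Finset.sum_neg_distrib, sub_eq_add_neg]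
  have k1 := c.K_mul D
  have k2 := c.K_mul D'
  have f1 := c.posF D (eff_of_sec hD) (by
    rw [pr_pr c.orth, pr_mul]
    omega)
  have f2 := c.posF D' (eff_of_sec hD') (by
    rw [pr_pr c.orth, pr_mul]
    omega)
  have f3 := other h' c.F
  rw [c.F_be, S.symm c.F D', S.symm c.F D] at f3
  have f4 : S.B D c.F = 2 := by omega
  obtain ⟨g, hg⟩ : ∃ g, g = S.pr c.E D - c.Kp := ⟨_, rfl⟩
  have g0 : ∀ x, S.B g x = S.B D x +
      (∑ i, c.mY D i * c.mY x i + ∑ i, c.mA D i * c.mA x i) - S.B c.Kp x := fun x => by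
    rw [hg, map_sub, AddMonoidHom.sub_apply, pr_mul]
  have g1 : S.B g c.F = 0 := by
    rw [g0, f4, c.KF]
    simp [mY_F, mA_F]
  have g2 : S.B g c.Kp = S.B c.Kp D := by
    rw [g0, c.KK, S.symm D]
    simp [mY_Kp, mA_Kp]
  have g3 : ∀ j, S.B (c.E j) g = 0 := fun j => by
    rw [S.symm, hg, map_sub, AddMonoidHom.sub_apply, pr_E c.orth, c.KE, sub_zero]
  have g4 : S.B g g = S.B D D + (∑ i, c.mY D i * c.mY D i + ∑ i, c.mA D i * c.mA D i) -
      2 * S.B c.Kp D := by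
    have g5 := g0 g
    have g6 := g0 D
    simp only [mY, mA, g3, mul_zero, Finset.sum_const_zero, add_zero] at g5
    rw [S.symm D g, S.symm c.Kp g] at g5
    omega
  obtain ⟨s, hs⟩ := c.chr g
  obtain ⟨t, ht⟩ := S.par g
  have g5 := c.K_mul g
  simp only [mY, mA, g3, Finset.sum_const_zero, add_zero] at g5
  rw [S.symm c.Kp g] at g5
  have x0 : S.B c.P (S.B c.P c.F • g - S.B c.P g • c.F) = 0 := by
    rw [map_sub, map_zsmul, map_zsmul, smul_eq_mul, smul_eq_mul]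
    ring
  have x1 : S.B (S.B c.P c.F • g - S.B c.P g • c.F) (S.B c.P c.F • g - S.B c.P g • c.F) =
      S.B c.P c.F ^ 2 * S.B g g := by
    simp only [map_sub, map_zsmul, AddMonoidHom.sub_apply, AddMonoidHom.zsmul_apply, smul_eq_mul,
      S.symm c.F g, g1, c.FF]
    ring
  have x2 := S.hodge' c.PP x0
  rw [x1] at x2
  have x3 : S.B g g ≤ 0 := nonpos_of_mul_nonpos_right x2 (pow_pos c.PF 2)
  have n1 := other h' c.la
  have n2 := other h' D
  have n3 := c.be_mul D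
  have n4 := c.la_mul D
  rw [c.la_be] at n1
  rw [S.symm D c.be] at n2
  rw [S.symm c.F D] at n3
  rw [map_sub, AddMonoidHom.sub_apply] at hn
  have x4 : S.B g g = 0 := by omega
  have x5 := S.hodge_eq c.PP x0 (by rw [x1, x4, mul_zero])
  simp only [map_sub, map_zsmul, AddMonoidHom.sub_apply, AddMonoidHom.zsmul_apply,
    smul_eq_mul] at x5
  have x6 := x5 c.Kp
  rw [c.FK, show S.B g c.Kp = 2 * s by omega] at x6
  have x7 : S.B c.P g = S.B c.P c.F * s := by linarith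
  have key : ∀ x, S.B D x = S.B (c.rep (c.mY D) (c.mA D) s) x := fun x => by
    have x8 := x5 x
    rw [x7, mul_assoc, ← mul_sub, mul_eq_zero] at x8
    have x9 := x8.resolve_left c.PF.ne'
    rw [rep_mul]
    linarith [g0 x]
  obtain ⟨b1, -, -, b4, b5, -⟩ := gram key h'
  have b6 := (nums key).2.2.2.2.2
  rw [S.symm] at b1 b5
  exact ⟨s, key, p1, p2, a3, by omega, by omega, by omega⟩

end

end Vale.Agent.P297Z.Num.Surf.Cfg
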