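import Vale.Agent.P297Z.Num.Enum2
import Vale.Agent.P297Z.Num.Cfg2

/-!
The numerical classes of the surviving loci.
-/

namespace Vale.Agent.P297Z.Num.Surf.Cf

variable {Λ Cv : Type} [AddCommGroup Λ] {S : Surf Λ Cv} {r : ℕ} (c : S.Cf r)

/-- the characteristic class -/
def X : Λ := c.Kp + ∑ i, c.E i

/-- the shifted first Chern class of the quotient -/
def bt : Λ := 2 • c.Kp + 4 • c.F + ∑ i : Fin 5, c.E (.inl i)

/-- the first Chern class of the quotient -/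
def be : Λ := 2 • c.u + c.bt

/-- the first line bundle -/
def la : Λ := -∑ i : Fin 5, c.E (.inl i)

/-- the last class -/
def uu : Λ := c.E (.inr 0) - c.E (.inr 1)

/-- half of the degree of `u` on `bt` -/
def b : ℤ := S.B c.u c.Kp + 2 * S.B c.u c.F

/-- the constant in the number of points -/
def cc : ℤ := 7 + S.B c.Kp c.Kp + 2 * c.b + S.B c.u c.u

/-- the multiplicities along the first five curves -/
def mY (D : Λ) (i : Fin 5) : ℤ := S.B (c.E (.inl i)) D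

/-- the multiplicities along the other classes -/
def mA (D : Λ) (i : Fin (r + 2)) : ℤ := S.B (c.E (.inr i)) D

/-- the class with given multiplicities -/
def rep (y : Fin 5 → ℤ) (a : Fin (r + 2) → ℤ) (s : ℤ) : Λ :=
  c.Kp + s • c.F - (∑ i, y i • c.E (.inl i) + ∑ i, a i • c.E (.inr i))

theorem K_mul (D : Λ) : S.B S.K D = 2 * S.B c.u D + S.B c.X D := by
  rw [c.hK, add_assoc, map_add, map_nsmul, AddMonoidHom.add_apply, AddMonoidHom.nsmul_apply,
    nsmul_eq_mul, Nat.cast_ofNat, X]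

theorem X_mul (D : Λ) : S.B c.X D = S.B c.Kp D + ∑ i, c.mY D i + ∑ i, c.mA D i := by
  rw [X, Fintype.sum_sum_type]
  simp only [map_add, map_sum, AddMonoidHom.add_apply, AddMonoidHom.finsetSum_apply, mY, mA,
    add_assoc]

theorem bt_mul (D : Λ) : S.B c.bt D = 2 * S.B c.Kp D + 4 * S.B c.F D + ∑ i, c.mY D i := by
  simp only [bt, map_add, map_sum, map_nsmul, AddMonoidHom.add_apply, AddMonoidHom.nsmul_apply,
    AddMonoidHom.finsetSum_apply, mY, nsmul_eq_mul, Nat.cast_ofNat]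

theorem be_mul (D : Λ) : S.B c.be D = 2 * S.B c.u D + S.B c.bt D := by
  rw [be, map_add, map_nsmul, AddMonoidHom.add_apply, AddMonoidHom.nsmul_apply,
    nsmul_eq_mul, Nat.cast_ofNat]

theorem la_mul (D : Λ) : S.B c.la D = -∑ i, c.mY D i := by
  simp only [la, map_neg, map_sum, AddMonoidHom.neg_apply, AddMonoidHom.finsetSum_apply, mY]

theorem uu_mul (D : Λ) : S.B c.uu D = c.mA D 0 - c.mA D 1 := by
  simp only [uu, map_sub, AddMonoidHom.sub_apply, mA]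

theorem rep_mul (y : Fin 5 → ℤ) (a : Fin (r + 2) → ℤ) (s : ℤ) (D : Λ) : S.B (c.rep y a s) D =
    S.B c.Kp D + s * S.B c.F D - (∑ i, y i * c.mY D i + ∑ i, a i * c.mA D i) := by
  simp only [rep, map_add, map_sub, map_sum, map_zsmul, AddMonoidHom.add_apply,
    AddMonoidHom.sub_apply, AddMonoidHom.zsmul_apply, AddMonoidHom.finsetSum_apply, mY, mA,
    smul_eq_mul]

theorem pr_mul (D x : Λ) : S.B (S.pr c.E D) x =
    S.B D x + (∑ i, c.mY D i * c.mY x i + ∑ i, c.mA D i * c.mA x i) := by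
  rw [pr_formula, Fintype.sum_sum_type]
  simp only [mY, mA, S.symm (c.E _)]

theorem mY_Kp (i : Fin 5) : c.mY c.Kp i = 0 := (S.symm _ _).trans (c.KE _)
theorem mA_Kp (i : Fin (r + 2)) : c.mA c.Kp i = 0 := (S.symm _ _).trans (c.KE _)
theorem mY_F (i : Fin 5) : c.mY c.F i = 0 := (S.symm _ _).trans (c.FE _)
theorem mA_F (i : Fin (r + 2)) : c.mA c.F i = 0 := (S.symm _ _).trans (c.FE _)
theorem mY_u (i : Fin 5) : c.mY c.u i = 0 := (S.symm _ _).trans (c.uY _)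
theorem FK : S.B c.F c.Kp = 2 := (S.symm _ _).trans c.KF

theorem mY_sub (D : Λ) : c.mY (D - c.u) = c.mY D := funext fun i => by
  rw [mY, map_sub, S.symm _ c.u, c.uY, sub_zero, mY]

theorem uu_sub (D : Λ) : S.B c.uu (D - c.u) = S.B c.uu D := by
  rw [map_sub, S.symm _ c.u, uu, map_sub (S.B c.u), c.u0, c.u1, sub_zero, sub_zero]

theorem mY_l (i j : Fin 5) : c.mY (c.E (.inl j)) i = if i = j then -1 else 0 := by
  simp only [mY, c.orth, Sum.inl.injEq]
theorem mY_r (i : Fin 5) (j : Fin (r + 2)) : c.mY (c.E (.inr j)) i = 0 := by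
  simp only [mY, c.orth, reduceCtorEq, if_false]
theorem mA_l (i : Fin (r + 2)) (j : Fin 5) : c.mA (c.E (.inl j)) i = 0 := by
  simp only [mA, c.orth, reduceCtorEq, if_false]
theorem mA_r (i j : Fin (r + 2)) : c.mA (c.E (.inr j)) i = if i = j then -1 else 0 := by
  simp only [mA, c.orth, Sum.inr.injEq]

theorem mY_bt (i : Fin 5) : c.mY c.bt i = -1 := by
  rw [mY, S.symm, bt_mul, c.KE, c.FE]
  simp [mY_l]
theorem mA_bt (i : Fin (r + 2)) : c.mA c.bt i = 0 := by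
  rw [mA, S.symm, bt_mul, c.KE, c.FE]
  simp [mY_r]
theorem mY_la (i : Fin 5) : c.mY c.la i = 1 := by
  rw [mY, S.symm, la_mul]
  simp [mY_l]
theorem mA_la (i : Fin (r + 2)) : c.mA c.la i = 0 := by
  rw [mA, S.symm, la_mul]
  simp [mY_r]
theorem mY_X (i : Fin 5) : c.mY c.X i = -1 := by
  rw [mY, S.symm, c.X_mul, c.KE]
  simp [mY_l, mA_l]
theorem mA_X (i : Fin (r + 2)) : c.mA c.X i = -1 := by
  rw [mA, S.symm, c.X_mul, c.KE]
  simp [mY_r, mA_r]
theorem Kp_bt : S.B c.Kp c.bt = 2 * S.B c.Kp c.Kp + 8 := by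
  rw [S.symm, bt_mul, c.FK]
  simp [mY_Kp]
theorem F_bt : S.B c.F c.bt = 4 := by
  rw [S.symm, bt_mul, c.KF, c.FF]
  simp [mY_F]
theorem u_bt : S.B c.u c.bt = 2 * c.b := by
  rw [S.symm, bt_mul, b, S.symm c.Kp, S.symm c.F]
  simp [mY_u]
  ring
theorem u_la : S.B c.u c.la = 0 := by
  rw [S.symm, la_mul]
  simp [mY_u]
theorem Kp_la : S.B c.Kp c.la = 0 := by
  rw [S.symm, la_mul]
  simp [mY_Kp]
theorem Kp_X : S.B c.Kp c.X = S.B c.Kp c.Kp := by
  rw [S.symm, c.X_mul]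
  simp [mY_Kp, mA_Kp]
theorem X_F : S.B c.X c.F = 2 := by
  rw [c.X_mul, c.KF]
  simp [mY_F, mA_F]
theorem K_K : S.B S.K S.K = S.B c.Kp c.Kp - 7 - r := by
  rw [c.KK]
  ring
theorem X_X : S.B c.X c.X = S.B c.Kp c.Kp - 7 - r := by
  rw [c.X_mul, c.Kp_X]
  simp [mY_X, mA_X]
  ring
theorem u_X : S.B c.u c.X = -S.B c.u c.u := by
  have h1 := c.K_mul S.K
  rw [S.symm c.u, S.symm c.X, c.K_mul c.u, c.K_mul c.X, c.X_X, c.K_K, S.symm c.X c.u] at h1
  omega
theorem X_la : S.B c.X c.la = 5 := by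
  rw [c.X_mul, c.Kp_la]
  simp [mY_la, mA_la]
theorem K_la : S.B S.K c.la = 5 := by
  rw [c.K_mul, c.X_la, c.u_la, mul_zero, zero_add]
theorem X_bt : S.B c.X c.bt = 2 * S.B c.Kp c.Kp + 3 := by
  rw [c.X_mul, c.Kp_bt]
  simp [mY_bt, mA_bt]
  ring
theorem la_la : S.B c.la c.la = -5 := by
  rw [la_mul]
  simp [mY_la]
theorem la_bt : S.B c.la c.bt = 5 := by
  rw [la_mul]
  simp [mY_bt]
theorem bt_bt : S.B c.bt c.bt = 4 * S.B c.Kp c.Kp + 27 := by
  rw [bt_mul, c.Kp_bt, c.F_bt]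
  simp [mY_bt]
  ring

/-- The virtual dimension. -/
theorem vd : 2 * c.cc + S.B c.la c.be - S.B S.K c.be = 16 := by
  rw [S.symm c.la, S.symm S.K, be_mul, be_mul, c.u_la, S.symm c.bt, c.la_bt, S.symm c.u,
    S.symm c.bt, c.K_mul, c.K_mul, S.symm c.X c.u, c.u_X, c.u_bt, c.X_bt, cc]
  ring

theorem sq_shift (T : Λ) : S.B (T + c.u) (T + c.u) - S.B S.K (T + c.u) = S.B T T - S.B c.X T := by
  simp only [c.K_mul, map_add, AddMonoidHom.add_apply, S.symm T c.u, S.symm c.X c.u, c.u_X]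
  ring

section
variable {c} {T T' : Λ} {y : Fin 5 → ℤ} {a : Fin (r + 2) → ℤ} {s : ℤ}

/-- The numbers of a class which is numerically equivalent to a standard class. -/
theorem nums (h : ∀ x, S.B T x = S.B (c.rep y a s) x) : c.mY T = y ∧ c.mA T = a ∧
    S.B c.Kp T = S.B c.Kp c.Kp + 2 * s ∧ S.B c.F T = 2 ∧
    S.B T T = S.B c.Kp c.Kp + 4 * s - ∑ i, y i * y i - ∑ i, a i * a i := by
  have h1 : c.mY T = y := funext fun i => by
    rw [mY, S.symm, h, rep_mul, c.KE, c.FE]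
    simp [mY_l, mA_l]
  have h2 : c.mA T = a := funext fun i => by
    rw [mA, S.symm, h, rep_mul, c.KE, c.FE]
    simp [mY_r, mA_r]
  have h3 : S.B c.Kp T = S.B c.Kp c.Kp + 2 * s := by
    rw [S.symm, h, rep_mul, c.FK]
    simp [mY_Kp, mA_Kp, mul_comm]
  have h4 : S.B c.F T = 2 := by
    rw [S.symm, h, rep_mul, c.KF, c.FF]
    simp [mY_F, mA_F]
  refine ⟨h1, h2, h3, h4, ?_⟩
  rw [h, rep_mul, h1, h2, h3, h4]
  ring

theorem other (h' : ∀ x, S.B (T + T') x = S.B c.bt x) (x : Λ) :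
    S.B x T' = S.B x c.bt - S.B x T := by
  rw [S.symm x c.bt, ← h', S.symm _ x, map_add, add_sub_cancel_left]

theorem gram (h : ∀ x, S.B T x = S.B (c.rep y a s) x) (h' : ∀ x, S.B (T + T') x = S.B c.bt x) :
    S.B T c.X = S.B c.Kp c.Kp + 2 * s + ∑ i, y i + ∑ i, a i ∧ S.B T c.la = -∑ i, y i ∧
    S.B T T' = S.B c.Kp c.Kp + 8 + ∑ i, y i + ∑ i, y i * y i + ∑ i, a i * a i ∧
    S.B T' T' = S.B c.Kp c.Kp + 11 - 4 * s - 2 * ∑ i, y i - ∑ i, y i * y i - ∑ i, a i * a i ∧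
    S.B T' c.X = S.B c.Kp c.Kp + 3 - 2 * s - ∑ i, y i - ∑ i, a i ∧
    S.B T' c.la = 5 + ∑ i, y i := by
  obtain ⟨h1, h2, h3, h4, h6⟩ := nums h
  have a1 := c.X_mul T
  have a2 := c.la_mul T
  have a3 := c.bt_mul T
  rw [h1] at a1 a2 a3
  rw [h2] at a1
  have b1 := other h' T
  have b2 := other h' T'
  have b3 := other h' c.X
  have b4 := other h' c.la
  have b5 := other h' c.bt
  rw [c.X_bt] at b3
  rw [c.la_bt] at b4
  rw [c.bt_bt] at b5
  rw [S.symm T c.bt] at b1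
  rw [S.symm T' c.bt, S.symm T' T] at b2
  rw [S.symm T c.X, S.symm T c.la, S.symm T' c.X, S.symm T' c.la]
  refine ⟨?_, ?_, ?_, ?_, ?_, ?_⟩ <;> linarith

theorem num_shift (h' : ∀ x, S.B (T + T') x = S.B c.bt x) :
    c.cc + S.B (c.la - (T + c.u)) (T' + c.u) = 7 + S.B c.Kp c.Kp + S.B (c.la - T) T' := by
  have h1 := other h' c.u
  rw [c.u_bt] at h1
  simp only [cc, map_add, map_sub, AddMonoidHom.add_apply, AddMonoidHom.sub_apply, h1,
    S.symm c.la c.u, c.u_la, S.symm T c.u]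
  ring

theorem chi_shift (T : Λ) : Eval.chiN S.B S.K (T + c.u) = 1 + (S.B T T - S.B c.X T) / 2 := by
  rw [Eval.chiN, c.sq_shift]

theorem pos_shift (hT : S.Eff (T + c.u))
    (h : 0 < S.B T T - S.B c.X T + (∑ i, c.mY T i * c.mY T i + ∑ i, c.mY T i)) :
    2 ≤ S.B c.F T := by
  have e : ∀ i, S.B (T + c.u) (c.E (.inl i)) = c.mY T i := fun i => by
    rw [map_add, AddMonoidHom.add_apply, c.uY, add_zero, S.symm, mY]
  have h1 := c.posF _ hT (by
    simp only [c.sq_shift, e, Finset.sum_add_distrib]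
    exact h)
  rw [c.K_mul, c.X_F, map_add, AddMonoidHom.add_apply, S.symm T] at h1
  omega

theorem sec_shift (h1 : 0 ≤ S.B T T - S.B c.X T)
    (h2 : 2 ≤ ∑ i, c.mY T i * c.mY T i + ∑ i, c.mY T i) (h3 : S.B c.F T = 2) :
    S.Sec (T + c.u) := by
  refine (S.rr _ (by rwa [c.sq_shift])).resolve_right fun h4 => ?_
  have e : S.K - (T + c.u) = c.X - T + c.u := by
    rw [c.hK, X]
    abel
  have e1 : ∀ i, c.mY (c.X - T) i = -1 - c.mY T i := fun i => by
    rw [← c.mY_X i, mY, map_sub, mY, mY]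
  have e2 : ∑ i, c.mY (c.X - T) i * c.mY (c.X - T) i + ∑ i, c.mY (c.X - T) i =
      ∑ i, c.mY T i * c.mY T i + ∑ i, c.mY T i := by
    rw [← Finset.sum_add_distrib, ← Finset.sum_add_distrib]
    exact Finset.sum_congr rfl fun i _ => by rw [e1]; ring
  rw [e] at h4
  have h5 := pos_shift (eff_of_sec h4) (by
    rw [e2]
    simp only [map_sub, AddMonoidHom.sub_apply, S.symm T c.X]
    omega)
  rw [map_sub, S.symm, c.X_F] at h5
  omega

theorem tri_other (h' : ∀ x, S.B (T + T') x = S.B c.bt x) :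
    ∑ i, c.mY T' i * c.mY T' i + ∑ i, c.mY T' i = ∑ i, c.mY T i * c.mY T i + ∑ i, c.mY T i := by
  have y1 : ∀ i, c.mY T' i = -1 - c.mY T i := fun i => by
    rw [← c.mY_bt i]
    exact other h' _
  rw [← Finset.sum_add_distrib, ← Finset.sum_add_distrib]
  exact Finset.sum_congr rfl fun i _ => by rw [y1]; ring

theorem facts (h : ∀ x, S.B T x = S.B (c.rep y a s) x) (h' : ∀ x, S.B (T + T') x = S.B c.bt x)
    {n : ℕ} (hc : Cond (∑ i, y i * y i) (∑ i, y i) (∑ i, a i * a i) (∑ i, a i) s n) :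
    S.Sec (T + c.u) ∧ S.Sec (T' + c.u) ∧
      c.cc + S.B (c.la - (T + c.u)) (T' + c.u) = 4 - ∑ i, y i * y i - ∑ i, a i * a i ∧
      1 ≤ Eval.chiN S.B S.K (T + c.u) ∧ 1 ≤ Eval.chiN S.B S.K (T' + c.u) ∧
      Eval.chiN S.B S.K (T + c.u) + Eval.chiN S.B S.K (T' + c.u) ≤ 3 := by
  obtain ⟨h1, -, -, h5, h6⟩ := nums h
  obtain ⟨g1, g2, g3, g4, g5, g6⟩ := gram h h'
  obtain ⟨c1, c2, c3, c4, c5, c6⟩ := hc
  have a1 := sq_add_sum a
  have a2 := sq_sub_sum a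
  have a3 := other h' c.F
  rw [c.F_bt] at a3
  rw [S.symm T c.X] at g1
  rw [S.symm T' c.X] at g5
  refine ⟨sec_shift (by omega) (by rwa [h1]) h5,
    sec_shift (by omega) (by rwa [tri_other h', h1]) (by omega), ?_, ?_, ?_, ?_⟩
  · rw [num_shift h', map_sub, AddMonoidHom.sub_apply, S.symm c.la, g3, g6]
    ring
  · rw [chi_shift]
    omega
  · rw [chi_shift]
    omega
  · rw [chi_shift, chi_shift]
    omega

theorem mf_eq (h : ∀ x, S.B T x = S.B (c.rep y a s) x) (h' : ∀ x, S.B (T + T') x = S.B c.bt x)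
    {n n' : ℕ} (hc : Cond (∑ i, y i * y i) (∑ i, y i) (∑ i, a i * a i) (∑ i, a i) s n)
    (hn : (n + n' : ℤ) = c.cc + S.B (c.la - (T + c.u)) (T' + c.u)) :
    Eval.Mf S.B S.K c.la (T + c.u) (T' + c.u) n n' =
      tab2 r (S.B c.Kp c.Kp) (S.B c.u c.u) (S.B (c.rep y a s) c.u) c.b (∑ i, y i * y i)
        (∑ i, a i * a i) (∑ i, a i) s n := by
  obtain ⟨g1, g2, g3, g4, g5, g6⟩ := gram h h'
  have h1 := (facts h h' hc).2.2.1
  have h2 := (nums h).2.2.2.2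
  have h3 := other h' c.u
  rw [c.u_bt] at h3
  rw [← h, S.symm T c.u]
  refine mf_tab2 S.B S.symm S.K c.la _ _ r _ _ _ _ _ _ _ _ s n n' hc (by omega) (even_sq_add y)
    (even_sq_add a) (sq_add_sum a) (sq_sub_sum a) ?_ ?_ ?_ ?_ ?_ ?_ ?_ c.K_K c.K_la c.la_la <;>
  simp only [S.symm _ S.K, c.K_mul, map_add, AddMonoidHom.add_apply, S.symm T c.u, S.symm T' c.u,
    S.symm c.X, c.u_X, c.u_la, g1, g2, g3, g4, g5, g6, h2, h3] <;>
  ring

/-- The enumeration. -/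
theorem surv (hD : S.Sec (T + c.u)) (hD' : S.Sec (T' + c.u))
    (h' : ∀ x, S.B (T + T') x = S.B c.bt x) {n n' : ℕ}
    (hn : (n + n' : ℤ) = c.cc + S.B (c.la - (T + c.u)) (T' + c.u))
    (h1 : 1 ≤ Eval.chiN S.B S.K (T + c.u)) (h2 : 1 ≤ Eval.chiN S.B S.K (T' + c.u))
    (hp : hP (c.mY T) ≠ 0) (hu : S.B c.uu T ≠ 0) :
    ∃ s, (∀ x, S.B T x = S.B (c.rep (c.mY T) (c.mA T) s) x) ∧
      Cond (∑ i, c.mY T i * c.mY T i) (∑ i, c.mY T i) (∑ i, c.mA T i * c.mA T i) (∑ i, c.mA T i)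
        s n := by
  obtain ⟨p1, p2⟩ := hP_ne hp
  have a1 := sq_add_sum (c.mA T)
  have a2 := sq_sub_sum (c.mA T)
  rw [chi_shift] at h1 h2
  rw [num_shift h'] at hn
  have a3 : 1 ≤ ∑ i, c.mA T i * c.mA T i := by
    by_contra h3
    have h4 := (Finset.sum_eq_zero_iff_of_nonneg fun i _ => mul_self_nonneg (c.mA T i)).mp
      (show ∑ i, c.mA T i * c.mA T i = 0 by omega)
    rw [uu_mul, mul_self_eq_zero.mp (h4 0 (Finset.mem_univ _)),
      mul_self_eq_zero.mp (h4 1 (Finset.mem_univ _)), sub_zero] at hu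
    exact hu rfl
  have f1 := pos_shift (eff_of_sec hD) (by omega)
  have f2 := pos_shift (eff_of_sec hD') (by rw [tri_other h']; omega)
  have f3 := other h' c.F
  rw [c.F_bt] at f3
  have f4 : S.B T c.F = 2 := by
    rw [S.symm]
    omega
  obtain ⟨g, hg⟩ : ∃ g, g = S.pr c.E T - c.Kp := ⟨_, rfl⟩
  have g0 : ∀ x, S.B g x = S.B T x +
      (∑ i, c.mY T i * c.mY x i + ∑ i, c.mA T i * c.mA x i) - S.B c.Kp x := fun x => by
    rw [hg, map_sub, AddMonoidHom.sub_apply, pr_mul]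
  have g1 : S.B g c.F = 0 := by
    rw [g0, f4, c.KF]
    simp [mY_F, mA_F]
  have g2 : S.B g c.Kp = S.B c.Kp T - S.B c.Kp c.Kp := by
    rw [g0, S.symm T]
    simp [mY_Kp, mA_Kp]
  have g3 : ∀ j, S.B g (c.E j) = 0 := fun j => by
    rw [hg, map_sub, AddMonoidHom.sub_apply, pr_E c.orth, c.KE, sub_zero]
  have g4 : S.B g g = S.B T T + (∑ i, c.mY T i * c.mY T i + ∑ i, c.mA T i * c.mA T i) -
      2 * S.B c.Kp T + S.B c.Kp c.Kp := by
    have g5 := g0 g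
    have g6 := g0 T
    simp only [mY, mA, S.symm (c.E _) g, g3, mul_zero, Finset.sum_const_zero, add_zero] at g5
    rw [S.symm T g, S.symm c.Kp g] at g5
    omega
  have x3 := iso_le c.ee c.eF c.FF g1
  have x2 := c.max g g1 g3
  have n1 := other h' c.la
  have n2 := other h' T
  have n3 := c.bt_mul T
  have n4 := c.la_mul T
  rw [c.la_bt] at n1
  rw [S.symm T c.bt] at n2
  rw [S.symm c.F T] at n3
  rw [map_sub, AddMonoidHom.sub_apply] at hn
  have x4 : S.B g g = 0 := by omega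
  have key : ∀ x, S.B T x = S.B (c.rep (c.mY T) (c.mA T) (S.B c.e g)) x := fun x => by
    have x8 := iso_eq c.ee c.eF c.FF g1 x4 x
    rw [rep_mul]
    linarith [g0 x]
  obtain ⟨b1, -, -, b4, b5, -⟩ := gram key h'
  have b6 := (nums key).2.2.2.2
  rw [S.symm] at b1 b5
  exact ⟨_, key, p1, p2, a3, by omega, by omega, by omega⟩

end

end Vale.Agent.P297Z.Num.Surf.Cf
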