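import Vale.Agent.P297Z.Top.Ev
import Vale.Agent.P297Z.Num.Count

/-!
The numerical theorem.
-/

namespace Vale.Agent.P297Z

theorem numMain : NUMMAIN := fun _ _ _ _ _ c _ _ D₁ D₂ n₁ n₂ Lin hL hv hu he N M kap hk rel van ev =>
  Num.main c D₁ N M rel
    (Num.count c D₁ D₂ n₁ n₂ Lin hL hv hu he M kap hk (fun i h => (van i h).2) ev)

end Vale.Agent.P297Z
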