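import Vale.Agent.P297Z.Num.Mmp

/-!
The numerical minimal model program without any positivity assumption on the canonical class.
-/

namespace Vale.Agent.P297Z.Num

namespace Surf

variable {Λ Cv : Type} [AddCommGroup Λ] (S : Surf Λ Cv)

/-- The light cone lemma. -/
theorem cone_lt {h x y : Λ} (hh : 0 < S.B h h) (hx : 0 < S.B x x) (hy : 0 ≤ S.B y y)
    (h1 : 0 < S.B h x) (h2 : 0 < S.B h y) : 0 < S.B x y := by
  by_contra hcon
  rw [not_lt] at hcon
  have h3 := S.hodge' (x := S.B h y • x - S.B h x • y) hh (by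
    rw [map_sub, map_zsmul, map_zsmul, smul_eq_mul, smul_eq_mul]
    ring)
  simp only [map_sub, map_zsmul, AddMonoidHom.sub_apply, AddMonoidHom.zsmul_apply, smul_eq_mul,
    S.symm y x] at h3
  have h4 : 0 < S.B h y ^ 2 * S.B x x := by positivity
  have h5 : S.B h y * S.B h x * S.B x y ≤ 0 :=
    mul_nonpos_of_nonneg_of_nonpos (mul_pos h2 h1).le hcon
  have h6 : 0 ≤ S.B h x ^ 2 * S.B y y := by positivity
  nlinarith

/-- A multiple of a class in the positive cone is effective. -/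
theorem eff_nsmul {x : Λ} (hx : 0 < S.B x x) (hH : 0 < S.B S.H x) :
    ∃ n : ℤ, 0 < n ∧ S.Eff (n • x) := by
  have a1 := abs_nonneg (S.B S.K x)
  have a2 := abs_nonneg (S.B S.H S.K)
  have a3 := le_abs_self (S.B S.K x)
  have a4 := le_abs_self (S.B S.H S.K)
  set n : ℤ := |S.B S.K x| + |S.B S.H S.K| + 1 with hn
  refine ⟨n, by omega, ?_⟩
  rcases S.rr (n • x) (by
    simp only [map_zsmul, AddMonoidHom.zsmul_apply, smul_eq_mul]
    have a5 : n ≤ n * S.B x x := le_mul_of_one_le_right (by omega) hx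
    have a6 : n * S.B S.K x ≤ n * (n * S.B x x) := mul_le_mul_of_nonneg_left (by omega) (by omega)
    linarith) with h | h
  · exact eff_of_sec h
  · have h2 := S.nef_H.eff (eff_of_sec h)
    rw [map_sub, map_zsmul, smul_eq_mul] at h2
    have a5 : n ≤ n * S.B S.H x := le_mul_of_one_le_right (by omega) hH
    omega

/-- The square of a nef class is not negative. -/
theorem Nef.sq {S : Surf Λ Cv} {P : Λ} (hP : S.Nef P) : 0 ≤ S.B P P := by
  by_contra hcon
  rw [not_le] at hcon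
  have hu : 0 ≤ S.B P S.H := hP.eff (eff_of_sec S.Hsec)
  have hv := S.Hsq
  have key : ∀ a b : ℤ, 0 ≤ a → 0 < b →
      0 < a * (a * S.B P P + b * S.B P S.H) + b * (a * S.B P S.H + b * S.B S.H S.H) →
      0 ≤ a * S.B P P + b * S.B P S.H := by
    intro a b ha hb h
    obtain ⟨n, hn, h1⟩ := S.eff_nsmul (x := a • P + b • S.H) (by
      simp only [map_add, map_zsmul, AddMonoidHom.add_apply, AddMonoidHom.zsmul_apply, smul_eq_mul,
        S.symm S.H P]
      linarith) (by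
      simp only [map_add, map_zsmul, smul_eq_mul, S.symm S.H P]
      positivity)
    have h2 := hP.eff h1
    simp only [map_add, map_zsmul, smul_eq_mul] at h2
    exact nonneg_of_mul_nonneg_right h2 hn |>.trans le_rfl
  rcases hu.eq_or_lt with h0 | h0
  · have h1 := key 1 (1 - S.B P P) zero_le_one (by omega) (by
      rw [← h0]
      have a1 : (1 - S.B P P) * (1 - S.B P P) ≤ (1 - S.B P P) * (1 - S.B P P) * S.B S.H S.H :=
        le_mul_of_one_le_right (mul_self_nonneg _) hv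
      nlinarith)
    rw [← h0] at h1
    omega
  · have h1 := key (2 * S.B P S.H) (-2 * S.B P P - 1) (by omega) (by omega) (by
      have a1 : 0 < (-2 * S.B P P - 1) * (-2 * S.B P P - 1) * S.B S.H S.H :=
        mul_pos (mul_pos (by omega) (by omega)) hv
      have a2 : 0 ≤ S.B P S.H * S.B P S.H * (-2 * S.B P P - 2) :=
        mul_nonneg (mul_self_nonneg _) (by omega)
      nlinarith)
    nlinarith

section

variable {S} {R : ℕ} {E : Fin R → Λ} {T : Finset Cv}

theorem Stage.notMem (h : S.Stage R E T) {x : Λ} {C : Cv} (hC : S.B (S.pr E x) (S.cl C) ≠ 0) :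
    C ∉ T := fun h3 => hC (by rw [pr_symm, pr_apply, h.span C h3, map_zero])

theorem Stage.nef_pr (h : S.Stage R E T) {x : Λ} (hx : S.Nef x) : S.Nef (S.pr E x) := fun C => by
  rw [pr_symm]
  exact hx.eff0 (h.pr_eff0 (AddSubmonoid.subset_closure ⟨C, rfl⟩))

theorem Stage.nef_cl (h : S.Stage R E T) {C : Cv} (hC : C ∉ T)
    (h0 : 0 ≤ S.B (S.pr E (S.cl C)) (S.cl C)) : S.Nef (S.pr E (S.cl C)) := fun C' => by
  by_cases e : C' = C
  · rw [e]
    exact h0
  · rw [pr_symm, S.symm]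
    exact h.pr_nonneg hC e

theorem Stage.H_pos (h : S.Stage R E T) {C : Cv} (hC : C ∉ T) :
    0 < S.B S.H (S.pr E (S.cl C)) := by
  obtain ⟨a, ha⟩ := h.proj C hC
  rw [pr_apply, ha, map_add, map_sum]
  refine add_pos_of_pos_of_nonneg (S.ample C) (Finset.sum_nonneg fun C' _ => ?_)
  rw [map_nsmul]
  exact nsmul_nonneg (S.ample C').le _

theorem Stage.adj_pr (h : S.Stage R E T) (C : Cv) :
    -2 ≤ S.B (S.pr E (S.cl C)) (S.cl C) + S.B (S.pr E S.K) (S.cl C) := by
  rw [pr_formula, pr_formula]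
  have h4 := S.adj C
  have h5 : 0 ≤ ∑ i, S.B (S.cl C) (E i) * S.B (S.cl C) (E i) +
      ∑ i, S.B S.K (E i) * S.B (S.cl C) (E i) := by
    rw [← Finset.sum_add_distrib]
    refine Finset.sum_nonneg fun i _ => ?_
    rw [h.kE]
    rcases le_or_gt (S.B (S.cl C) (E i)) 0 with h6 | h6 <;> nlinarith
  linarith

theorem Stage.KK (h : S.Stage R E T) : S.B (S.pr E S.K) (S.pr E S.K) = S.B S.K S.K + R := by
  rw [pr_pr h.orth, pr_formula]
  simp [h.kE]

theorem Stage.pr_sum (h : S.Stage R E T) (x : Λ) : S.B (S.pr E x) (∑ i, E i) = 0 := by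
  rw [map_sum]
  exact Finset.sum_eq_zero fun i _ => pr_E h.orth x i

/-- Termination of adjunction. -/
theorem Stage.adjunction (h : S.Stage R E T) (hK : S.B (S.pr E S.K) (S.pr E S.K) ≤ 0) {Q : Λ}
    (hQ : S.Nef (S.pr E Q)) (hE : S.Eff Q) (h0 : S.B (S.pr E S.K) Q < 0) :
    ∃ C, S.B (S.pr E S.K) (S.cl C) < 0 ∧
      S.B (S.pr E (S.cl C)) (S.cl C) + S.B (S.pr E S.K) (S.cl C) = -2 := by
  classical
  have hex : ∃ n : ℕ, ¬ S.Eff (S.pr E Q + (n + 1) • S.pr E S.K) := by
    refine ⟨(S.B (S.pr E Q) Q).toNat, fun h1 => ?_⟩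
    have h2 := hQ.eff h1
    rw [map_add, map_nsmul, pr_pr h.orth, pr_pr h.orth, pr_symm Q S.K, S.symm Q (S.pr E S.K),
      nsmul_eq_mul] at h2
    have h3 : S.B (S.pr E Q) Q ≤ ((S.B (S.pr E Q) Q).toNat : ℤ) := Int.self_le_toNat _
    push_cast at h2
    nlinarith [Int.natCast_nonneg (S.B (S.pr E Q) Q).toNat]
  have hn := Nat.find_spec hex
  have hm : S.Eff (S.pr E Q + Nat.find hex • S.pr E S.K) := by
    rcases Nat.eq_zero_or_pos (Nat.find hex) with h1 | h1
    · rw [h1, zero_smul, add_zero]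
      exact h.pr_eff hE
    · have h2 := Nat.find_min hex (m := Nat.find hex - 1) (by omega)
      rwa [not_not, Nat.sub_add_cancel h1] at h2
  set n := Nat.find hex
  obtain ⟨y, hy, h1⟩ := hm
  have h2 : S.B (S.pr E S.K) y < 0 := by
    rw [S.symm, ← h1, S.symm, map_add, map_nsmul, nsmul_eq_mul, pr_pr h.orth]
    have := mul_nonpos_of_nonneg_of_nonpos (Int.natCast_nonneg n) hK
    omega
  have h3 : ∀ y, S.Eff0 y → S.B (S.pr E S.K) y < 0 →
      ∃ C z, S.B (S.pr E S.K) (S.cl C) < 0 ∧ S.Eff0 z ∧ y = S.cl C + z := by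
    intro y hy
    induction hy using AddSubmonoid.closure_induction with
    | mem z hz =>
      obtain ⟨C, rfl⟩ := hz
      exact fun h4 => ⟨C, 0, h4, zero_mem _, (add_zero _).symm⟩
    | zero =>
      intro h4
      rw [map_zero] at h4
      exact absurd h4 (lt_irrefl _)
    | add a b ha hb iha ihb =>
      intro h4
      rw [map_add] at h4
      rcases lt_or_ge (S.B (S.pr E S.K) a) 0 with h5 | h5
      · obtain ⟨C, z, h6, h7, rfl⟩ := iha h5
        exact ⟨C, z + b, h6, add_mem h7 hb, add_assoc _ _ _⟩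
      · obtain ⟨C, z, h6, h7, rfl⟩ := ihb (by omega)
        exact ⟨C, a + z, h6, add_mem ha h7, by abel⟩
  obtain ⟨C, z, h4, hz, rfl⟩ := h3 y hy h2
  refine ⟨C, h4, ?_⟩
  have hC := h.notMem h4.ne
  have h5 := h.adj_pr C
  have e1 : S.B (S.pr E S.K + S.pr E (S.cl C)) (S.pr E S.K + S.pr E (S.cl C)) -
      S.B S.K (S.pr E S.K + S.pr E (S.cl C)) =
      S.B (S.pr E (S.cl C)) (S.cl C) + S.B (S.pr E S.K) (S.cl C) := by
    simp only [map_add, AddMonoidHom.add_apply, pr_pr h.orth, ← pr_symm S.K,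
      S.symm (S.pr E (S.cl C)) S.K]
    ring
  obtain ⟨k, hk⟩ := S.par (S.pr E S.K + S.pr E (S.cl C))
  rw [e1] at hk
  by_contra hcon
  rcases S.rr (S.pr E S.K + S.pr E (S.cl C)) (by omega) with h6 | h6
  · obtain ⟨w, hw, h7⟩ := (eff_of_sec h6).add ⟨_, h.pr_eff0 hz, fun _ => rfl⟩
    refine hn ⟨w, hw, fun x => ?_⟩
    have h8 := h1 (S.pr E x)
    rw [← h7, add_assoc, ← map_add, map_add S.B (S.pr E S.K), AddMonoidHom.add_apply,
      pr_symm (S.cl C + z), ← h8]
    simp only [map_add, map_nsmul, AddMonoidHom.add_apply, AddMonoidHom.nsmul_apply,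
      pr_pr h.orth, succ_nsmul]
    ring
  · have h7 := (h.nef_pr S.nef_H).eff (eff_of_sec h6)
    rw [map_sub, map_add, pr_pr h.orth, pr_pr h.orth, pr_symm S.H (S.cl C)] at h7
    have h8 := h.H_pos hC
    omega

/-- The classes in the forward cone if the canonical class is negative on a nef class. -/
theorem Stage.fwd_neg (h : S.Stage R E T) (hK : 0 ≤ S.B (S.pr E S.K) (S.pr E S.K)) {Q : Λ}
    (hQ : S.Nef (S.pr E Q)) (h1 : 0 < S.B S.H (S.pr E Q)) (h2 : S.B (S.pr E Q) S.K ≤ 0) {D : Λ}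
    (hD : S.Eff D) (h3 : 0 < S.B (S.pr E D) D - S.B (S.pr E S.K) D) :
    S.B (S.pr E S.H) S.K < 2 * S.B (S.pr E S.H) D := by
  have hh : 0 < S.B (S.pr E S.H) (S.pr E S.H) := by
    rw [pr_pr h.orth, pr_formula]
    exact add_pos_of_pos_of_nonneg S.Hsq (Finset.sum_nonneg fun i _ => mul_self_nonneg _)
  have e1 : ∀ y, S.B (S.pr E y) (S.pr E S.K - 2 • S.pr E D) =
      S.B (S.pr E y) S.K - 2 * S.B (S.pr E y) D := fun y => by
    rw [map_sub, map_nsmul, pr_pr h.orth, pr_pr h.orth, nsmul_eq_mul, Nat.cast_ofNat]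
  have hx : 0 < S.B (S.pr E S.K - 2 • S.pr E D) (S.pr E S.K - 2 • S.pr E D) := by
    rw [map_sub S.B, map_nsmul S.B, AddMonoidHom.sub_apply, AddMonoidHom.nsmul_apply, e1, e1,
      pr_symm D S.K, S.symm D, nsmul_eq_mul, Nat.cast_ofNat]
    rw [pr_pr h.orth] at hK
    omega
  by_contra hcon
  rw [not_lt] at hcon
  rcases hcon.eq_or_lt with h4 | h4
  · exact absurd (S.hodge' hh (by rw [e1]; omega)) (not_le.mpr hx)
  · have h5 := S.cone_lt hh hx hQ.sq (by rw [e1]; omega) (by rwa [pr_pr h.orth, pr_symm])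
    rw [S.symm, e1] at h5
    have h6 := hQ.eff hD
    omega

/-- The classes in the forward cone if the canonical class is nef. -/
theorem Stage.fwd_nef (h : S.Stage R E T) (hK : S.Nef (S.pr E S.K)) {D : Λ}
    (hD : S.Eff D) (h3 : 0 < S.B (S.pr E D) D - S.B (S.pr E S.K) D) :
    S.B (S.pr E S.H) S.K < 2 * S.B (S.pr E S.H) D := by
  have h0 : 0 ≤ S.B (S.pr E S.H) S.K := by
    rw [pr_symm, S.symm]
    exact hK.eff (eff_of_sec S.Hsec)
  have hh : 0 < S.B (S.pr E S.H) (S.pr E S.H) := by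
    rw [pr_pr h.orth, pr_formula]
    exact add_pos_of_pos_of_nonneg S.Hsq (Finset.sum_nonneg fun i _ => mul_self_nonneg _)
  rcases h0.eq_or_lt with h1 | h1
  · exact h.fwd_neg hK.sq (h.nef_pr S.nef_H) (by rwa [pr_pr h.orth, pr_symm] at hh) h1.ge hD h3
  have e1 : ∀ y, S.B (S.pr E y) (S.pr E S.K - 2 • S.pr E D) =
      S.B (S.pr E y) S.K - 2 * S.B (S.pr E y) D := fun y => by
    rw [map_sub, map_nsmul, pr_pr h.orth, pr_pr h.orth, nsmul_eq_mul, Nat.cast_ofNat]
  have h2 := hK.sq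
  have h4 := hK.eff hD
  have h5 := S.cone_lt (x := S.pr E D) hh (by rw [pr_pr h.orth]; omega) h2 (by
    rw [pr_pr h.orth]
    refine ((h.nef_pr S.nef_H).eff hD).lt_of_ne fun h5 => ?_
    have h6 := S.hodge' (x := S.pr E D) hh (by rw [pr_pr h.orth, ← h5])
    rw [pr_pr h.orth] at h6
    omega) (by rwa [pr_pr h.orth])
  rw [S.symm, pr_pr h.orth] at h5
  have hx : 0 < S.B (S.pr E S.K - 2 • S.pr E D) (S.pr E S.K - 2 • S.pr E D) := by
    rw [map_sub S.B, map_nsmul S.B, AddMonoidHom.sub_apply, AddMonoidHom.nsmul_apply, e1, e1,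
      pr_symm D S.K, S.symm D, nsmul_eq_mul, Nat.cast_ofNat]
    rw [pr_pr h.orth] at h2
    omega
  by_contra hcon
  rw [not_lt] at hcon
  rcases hcon.eq_or_lt with h6 | h6
  · exact absurd (S.hodge' hh (by rw [e1]; omega)) (not_le.mpr hx)
  · have h7 := S.cone_lt hh hx h2 (by rw [e1]; omega) (by rwa [pr_pr h.orth])
    rw [S.symm, e1, ← pr_pr h.orth] at h7
    have h8 := S.hodge_ineq (h := S.pr E S.K) (by omega) (S.pr E D)
    rw [pr_pr h.orth D, pr_pr h.orth S.K D] at h8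
    nlinarith

end

/-- The class of the fibres of a ruling, or of a net of rational curves. -/
def Ruled : Prop := ∃ D, S.Nef D ∧ 0 ≤ S.B D D ∧ S.B D D + S.B S.K D = -2

/-- The output of the program in the other cases. -/
structure Fwd (R : ℕ) (E : Fin R → Λ) (h : Λ) : Prop where
  orth : ∀ i j, S.B (E i) (E j) = if i = j then -1 else 0
  kE : ∀ i, S.B S.K (E i) = -1
  hE : ∀ i, S.B h (E i) = 0
  sq : 0 ≤ S.B S.K S.K + R
  pos : 0 < S.B h h
  fwd : ∀ D, S.Eff D → 0 < S.B D D - S.B S.K D + ∑ i, (S.B D (E i) * S.B D (E i) + S.B D (E i)) →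
    S.B h S.K < 2 * S.B h D

/-- The numerical minimal model program. -/
theorem mmp2 (hR : ¬ S.Ruled) : ∃ (R : ℕ) (E : Fin R → Λ) (h : Λ), S.Fwd R E h := by
  classical
  by_contra hcon
  have fin : ∀ {R : ℕ} {E : Fin R → Λ} {T : Finset Cv}, S.Stage R E T →
      0 ≤ S.B (S.pr E S.K) (S.pr E S.K) →
      (∀ D, S.Eff D → 0 < S.B (S.pr E D) D - S.B (S.pr E S.K) D →
        S.B (S.pr E S.H) S.K < 2 * S.B (S.pr E S.H) D) → False := by
    intro R E T h h1 h2
    refine hcon ⟨R, E, S.pr E S.H, h.orth, h.kE, pr_E h.orth _, by rwa [h.KK] at h1, ?_,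
      fun D hD h3 => h2 D hD ?_⟩
    · rw [pr_pr h.orth, pr_formula]
      exact add_pos_of_pos_of_nonneg S.Hsq (Finset.sum_nonneg fun i _ => mul_self_nonneg _)
    · rw [pr_formula, pr_formula]
      simp only [h.kE, neg_mul, one_mul, Finset.sum_neg_distrib]
      rw [Finset.sum_add_distrib] at h3
      omega
  have h1 : ∀ R : ℕ, ∃ (E : Fin R → Λ) (T : Finset Cv), S.Stage R E T ∧
      S.B S.H (S.pr E S.K) ≤ S.B S.H S.K - R := by
    intro R
    induction R with
    | zero =>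
      exact ⟨Fin.elim0, ∅, ⟨rfl, fun i => i.elim0, fun i => i.elim0, by simp,
        fun C _ => ⟨fun _ => 0, by simp⟩⟩, by simp [pr_apply]⟩
    | succ R ih =>
      obtain ⟨E, T, hS, hT⟩ := ih
      have h2 : ∃ C, S.B (S.pr E S.K) (S.cl C) < 0 ∧ S.B (S.pr E (S.cl C)) (S.cl C) < 0 := by
        have h3 : ¬ S.Nef (S.pr E S.K) := fun h3 => fin hS h3.sq fun D => hS.fwd_nef h3
        rw [Nef] at h3
        push Not at h3
        obtain ⟨C, hC⟩ := h3
        by_contra h4
        push Not at h4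
        have h5 := hS.notMem hC.ne
        have h6 := hS.nef_cl h5 (h4 C hC)
        rcases le_or_gt 0 (S.B (S.pr E S.K) (S.pr E S.K)) with h7 | h7
        · exact fin hS h7 fun D => hS.fwd_neg h7 h6 (hS.H_pos h5) (by
            rw [pr_symm, S.symm]
            exact hC.le)
        · obtain ⟨C', h8, h9⟩ := hS.adjunction h7.le h6
            ⟨_, AddSubmonoid.subset_closure ⟨C, rfl⟩, fun _ => rfl⟩ hC
          refine hR ⟨S.pr E (S.cl C'), hS.nef_cl (hS.notMem h8.ne) (h4 C' h8), ?_, ?_⟩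
          · rw [pr_pr hS.orth]
            exact h4 C' h8
          · rwa [pr_pr hS.orth, ← pr_symm S.K]
      obtain ⟨C, h3, h4⟩ := h2
      have h5 := hS.notMem h3.ne
      have h6 := hS.step h5 h4 h3
      refine ⟨_, _, h6, ?_⟩
      have h7 := hS.H_pos h5
      rw [hS.pr_K, map_sub] at hT
      rw [h6.pr_K, Fin.sum_univ_succ, map_sub, map_add]
      simp only [Fin.cons_zero, Fin.cons_succ]
      push_cast
      omega
  obtain ⟨E, T, hS, hT⟩ := h1 (|S.B S.H S.K| + |S.B S.K S.K|).toNat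
  have a1 := le_abs_self (S.B S.H S.K)
  have a2 := neg_abs_le (S.B S.K S.K)
  have a3 := abs_nonneg (S.B S.H S.K)
  have a4 := abs_nonneg (S.B S.K S.K)
  have h2 : 0 ≤ S.B (S.pr E S.K) (S.pr E S.K) := by
    rw [hS.KK]
    omega
  refine fin hS h2 fun D => hS.fwd_neg h2 (hS.nef_pr S.nef_H) ?_ ?_
  · rw [← pr_symm, pr_formula]
    exact add_pos_of_pos_of_nonneg S.Hsq (Finset.sum_nonneg fun i _ => mul_self_nonneg _)
  · rw [pr_symm]
    omega

end Surf

end Vale.Agent.P297Z.Num
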